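import Vale.Agent.P286.Sp.Pull

/-!
# Acyclicity at nontrivial split bundles
-/

namespace Vale.Agent.P286.Sp

open CategoryTheory LaurentPolynomial Matrix

noncomputable section

variable {N d : ℕ}

theorem sytoep_mul_assoc_pos {B : Type} [CommRing B] {X Y Z : Matrix (Fin N) (Fin N) B[T;T⁻¹]}
    (hX : MGE 0 X) (hY : MGE 0 Y) :
    sytoep 1 (X * Y * Z) = sytoep 1 X * sytoep 1 Y * sytoep 1 Z := by
  have h1 : MGE 0 (X * Y) := by
    have := hX.mul hY
    simpa using this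
  rw [sytoep_pos_mul 1 h1, sytoep_pos_mul 1 hX]

theorem sytoep_mul_assoc_neg {B : Type} [CommRing B] (X : Matrix (Fin N) (Fin N) B[T;T⁻¹])
    {Y Z : Matrix (Fin N) (Fin N) B[T;T⁻¹]}
    (hY : MLE 0 Y) (hZ : MLE 0 Z) :
    sytoep 1 (X * Y * Z) = sytoep 1 X * sytoep 1 Y * sytoep 1 Z := by
  rw [sytoep_mul_neg 1 _ hZ, sytoep_mul_neg 1 _ hY]

/-- The Toeplitz operator of a matrix in `SL_N(B[z])`, as a unit. -/
def posU {B : Type} [CommRing B] (X : Matrix (Fin N) (Fin N) B[T;T⁻¹]) (hX : MGE 0 X)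
    (hX1 : X.det = 1) : (Module.End B (Jx N →₀ B))ˣ where
  val := sytoep 1 X
  inv := sytoep 1 X.adjugate
  val_inv := by rw [← sytoep_pos_mul 1 hX, self_mul_adjugate hX1, sytoep_one]
  inv_val := by rw [← sytoep_pos_mul 1 hX.adjugate, adjugate_mul_self hX1, sytoep_one]

/-- The Toeplitz operator of a matrix in `SL_N(B[z⁻¹])`, as a unit. -/
def negU {B : Type} [CommRing B] (Y : Matrix (Fin N) (Fin N) B[T;T⁻¹]) (hY : MLE 0 Y)
    (hY1 : Y.det = 1) : (Module.End B (Jx N →₀ B))ˣ where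
  val := sytoep 1 Y
  inv := sytoep 1 Y.adjugate
  val_inv := by rw [← sytoep_mul_neg 1 _ hY.adjugate, self_mul_adjugate hY1, sytoep_one]
  inv_val := by rw [← sytoep_mul_neg 1 _ hY, adjugate_mul_self hY1, sytoep_one]

/-- The Toeplitz operator of the one-parameter group, as a unit. -/
def tauU (B : Type) [CommRing B] (mu : Fin N → ℤ) :
    (Module.End B[T;T⁻¹] (Jx N →₀ B[T;T⁻¹]))ˣ where
  val := sytoep 1 (tau B mu)
  inv := sytoep 1 (tau B (-mu))
  val_inv := by rw [← sytoep_pos_mul 1 (MGE.tau mu), tau_mul_neg, sytoep_one]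
  inv_val := by rw [← sytoep_pos_mul 1 (MGE.tau (-mu)), tau_neg_mul, sytoep_one]

theorem form_conj {R : Type} [CommRing R] {F g a b : Matrix (Fin N) (Fin N) R} {u : R}
    (hu : IsUnit u) (hg : g.transpose * F * g = u • F) (ha : a.transpose * F * a = F)
    (hgd : IsUnit g.det) (h : g * b = a * g) : b.transpose * F * b = F := by
  have h1 : u • (b.transpose * F * b) = u • F := by
    calc u • (b.transpose * F * b) = b.transpose * (g.transpose * F * g) * b := by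
          rw [hg, Matrix.mul_smul, Matrix.smul_mul]
      _ = (g * b).transpose * F * (g * b) := by
          rw [Matrix.transpose_mul]; simp only [Matrix.mul_assoc]
      _ = g.transpose * (a.transpose * F * a) * g := by
          rw [h, Matrix.transpose_mul]; simp only [Matrix.mul_assoc]
      _ = u • F := by rw [ha, hg]
  exact (hu.smul_left_cancel).1 h1

/-- A cartesian complex is acyclic at a nontrivial split bundle, if the twist is irrational. -/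
theorem acyclic_split (hN : Even N) {s : ℂ}
    (hs : ∀ m : ℤ, m ≠ 0 → ∀ k : ℤ, (k : ℂ) + s * m ≠ 0)
    {K : TCx (Bun N d) s} (hK : Cartesian K) (X : BunObj N d) (k : ℕ)
    (hgu : (X.g.u : (X.A.R)[T;T⁻¹]) = T (k : ℤ)) (lam : Fin N → ℤ)
    (hlam : ∃ i, 2 * lam i - (k : ℤ) ≠ 0) (hsum : 2 * ∑ i, lam i = N * (k : ℤ))
    (U V : Matrix (Fin N) (Fin N) (X.A.R)[T;T⁻¹])
    (hU : SplitData X.g k lam U V) (j : ℤ) (z : K.obj j X)
    (hz : K.Cyc X j z) : K.Bd X j z := by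
  rcases subsingleton_or_nontrivial X.A.R with hB | hB
  · have h1 : (1 : X.A.R) • z = (0 : X.A.R) • z := by rw [Subsingleton.elim (1 : X.A.R) 0]
    have h2 : z = 0 := by
      have h3 : (1 : X.A.R) • z = z := one_smul (X.A.R) z
      have h4 : (0 : X.A.R) • z = 0 := zero_smul (X.A.R) z
      rw [← h3, h1, h4]
    rw [h2]
    exact ⟨0, map_zero _⟩
  obtain ⟨m, hm, H⟩ := torus_weight (k : ℤ) lam hlam hsum
  set mu : Fin N → ℤ := sg (k : ℤ) lam with hmu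
  have hgd : IsUnit (up X.g.m).det := by
    have h1 : (up X.g.m).det = (LaurentPolynomial.C (R := (X.A.R)[T;T⁻¹]) 1 *
        lmap (LaurentPolynomial.C : X.A.R →+* (X.A.R)[T;T⁻¹]) X.g.m.det) := by
      rw [map_one, one_mul]
      exact det_mp _ _
    rw [h1, map_one, one_mul]
    exact X.g.isUnit_det.map _
  have hgf : (up X.g.m).transpose * fm N (X.A.R)[T;T⁻¹][T;T⁻¹] * up X.g.m =
      lmap (LaurentPolynomial.C : X.A.R →+* (X.A.R)[T;T⁻¹]) (X.g.u : (X.A.R)[T;T⁻¹]) •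
        fm N (X.A.R)[T;T⁻¹][T;T⁻¹] :=
    gs_map (lmap (LaurentPolynomial.C : X.A.R →+* (X.A.R)[T;T⁻¹])) X.g.hm
  have hVort : (al k lam V).transpose * fm N (X.A.R)[T;T⁻¹][T;T⁻¹] * al k lam V =
      fm N (X.A.R)[T;T⁻¹][T;T⁻¹] :=
    form_conj (X.g.u.isUnit.map _) hgf hU.al_ort hgd hU.glue
  have hUG : MGE 0 (al k lam U) := by
    have := ((MGE.mp' (LaurentPolynomial.C : X.A.R →+* (X.A.R)[T;T⁻¹]) hU.hX).mul (MGE.tau mu)).mul (MGE.mp' (LaurentPolynomial.C : X.A.R →+* (X.A.R)[T;T⁻¹]) hU.hX).adjugate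
    rw [add_zero, add_zero] at this
    exact this
  have hVL : MLE 0 (al k lam V) := by
    have := ((MLE.mp' (LaurentPolynomial.C : X.A.R →+* (X.A.R)[T;T⁻¹]) hU.hY).mul (MLE.tau mu)).mul (MLE.mp' (LaurentPolynomial.C : X.A.R →+* (X.A.R)[T;T⁻¹]) hU.hY).adjugate
    rw [add_zero, add_zero] at this
    exact this
  obtain ⟨a, ha⟩ := exists_pos (al k lam U) hUG (det_al hN hU hU.hX1) hU.al_ort
  obtain ⟨b, hb⟩ := exists_neg (al k lam V) hVL (det_al hN hU hU.hY1) hVort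
  have ht : GmGlue X a b := by
    apply GS.ext'
    · rw [GS.m_mul, GS.m_mul, ha, hb]
      exact hU.glue
    · rw [GS.u_mul, GS.u_mul, neg_u, pos_u, mul_one, one_mul]
  refine acyclic_of_torus hK X a b ht m ?_ (hs m hm) j z hz
  -- the units
  let ι : X.A.R →+* (X.A.R)[T;T⁻¹] := LaurentPolynomial.C
  let uX := posU U hU.hX hU.hX1
  let uY := negU V hU.hY hU.hY1
  let S' := bcU N ι X.S
  let uX' := bcU N ι uX
  let uY' := bcU N ι uY
  let t := tauU X.A.R mu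
  let S0 : (Module.End X.A.R (Jx N →₀ X.A.R))ˣ := uX⁻¹ * X.S * uY
  let S0' := bcU N ι S0
  have hS0' : S0' = uX'⁻¹ * S' * uY' := by
    simp only [S0', S0, map_mul, map_inv, uX', S', uY']
  have hS0 : FinRank ((S0 : Module.End X.A.R (Jx N →₀ X.A.R)) - sytoep (T (-(k : ℤ))) (mono lam)) := by
    have h1 : (mono lam : Matrix (Fin N) (Fin N) (X.A.R)[T;T⁻¹]) =
        U.adjugate * (X.g.m * V) := by
      rw [hU.hg, ← Matrix.mul_assoc, adjugate_mul_self hU.hX1, Matrix.one_mul]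
    have h2 : (S0 : Module.End X.A.R (Jx N →₀ X.A.R)) - sytoep (T (-(k : ℤ))) (mono lam) =
        sytoep 1 U.adjugate * ((X.S : Module.End X.A.R (Jx N →₀ X.A.R)) - toep X.g) *
          sytoep 1 V := by
      rw [h1, sytoep_pos_mul _ hU.hX.adjugate, sytoep_mul_neg _ _ hU.hY, toep_def, inv_u hgu]
      exact ring_aux₁ (sytoep 1 U.adjugate) (X.S : Module.End X.A.R (Jx N →₀ X.A.R))
        (sytoep (T (-(k : ℤ))) X.g.m) (sytoep 1 V)
    rw [h2]
    exact (X.framing.mul_left _).mul_right _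
  have hA : toepPos N (X.A.R)[T;T⁻¹] a = uX' * t * uX'⁻¹ := by
    apply Units.ext
    refine (toep_pos a).trans ?_
    change sytoep 1 (pos N (X.A.R)[T;T⁻¹] a).m = bc ι (sytoep 1 U) * sytoep 1 (tau X.A.R mu) *
      bc ι (sytoep 1 U.adjugate)
    rw [ha, bc_sytoep, bc_sytoep, map_one, al,
      sytoep_mul_assoc_pos (MGE.mp' _ hU.hX) (MGE.tau mu)]
    congr 2
    exact (mp_adjugate _ _).symm
  have hBinv : toepNeg N (X.A.R)[T;T⁻¹] b = uY' * t * uY'⁻¹ := by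
    apply Units.ext
    refine (toep_neg b).trans ?_
    change sytoep 1 (neg N (X.A.R)[T;T⁻¹] b).m = bc ι (sytoep 1 V) * sytoep 1 (tau X.A.R mu) *
      bc ι (sytoep 1 V.adjugate)
    rw [hb, bc_sytoep, bc_sytoep, map_one, al, sytoep_mul_assoc_neg _ (MLE.tau mu)
      (MLE.mp' (LaurentPolynomial.C : X.A.R →+* (X.A.R)[T;T⁻¹]) hU.hY).adjugate]
    congr 2
    exact (mp_adjugate _ _).symm
  have hfr := gmSigma_finRank X a b ht
  rw [gmSigma_dl]
  have hkey : toepPos N (X.A.R)[T;T⁻¹] a * bcU N (LaurentPolynomial.C : X.A.R →+* (X.A.R)[T;T⁻¹]) X.S *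
      (toepNeg N (X.A.R)[T;T⁻¹] b)⁻¹ *
      (bcU N (LaurentPolynomial.C : X.A.R →+* (X.A.R)[T;T⁻¹]) X.S)⁻¹ =
      uX' * (t * S0' * t⁻¹ * S0'⁻¹) * uX'⁻¹ := by
    rw [hA, hBinv, hS0']
    change uX' * t * uX'⁻¹ * S' * (uY' * t * uY'⁻¹)⁻¹ * S'⁻¹ = _
    group
  rw [hkey] at hfr ⊢
  have h9 : t * S0' * t⁻¹ * S0'⁻¹ = uX'⁻¹ * (uX' * (t * S0' * t⁻¹ * S0'⁻¹) * uX'⁻¹) * uX'⁻¹⁻¹ := by
    group
  have h10 := fdet_conj uX'⁻¹ hfr
  have h11 : fdet ((t * S0' * t⁻¹ * S0'⁻¹ : (Module.End (X.A.R)[T;T⁻¹] (Jx N →₀ (X.A.R)[T;T⁻¹]))ˣ) :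
      Module.End (X.A.R)[T;T⁻¹] (Jx N →₀ (X.A.R)[T;T⁻¹])) = T m := H X.A.R S0 hS0
  rw [← h10]
  rw [h9] at h11
  exact h11

end

end Vale.Agent.P286.Sp
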