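import Vale.Agent.P286.Sp.Theta

/-!
# The functor from `D`-modules on `BSp_N` to twisted `D`-modules on `Bun`
-/

namespace Vale.Agent.P286.Sp

open CategoryTheory LaurentPolynomial

noncomputable section

variable {N d : ℕ}

/-- the value at `z = 0` of a matrix in `Sp_N(A[z])` -/
def ev0 (N : ℕ) (A : Type) [CommRing A] :
    SP N (Polynomial A) →* SP N A :=
  spm N (Polynomial.constantCoeff)

theorem ev0_slm {A B : Type} [CommRing A] [CommRing B] (f : A →+* B)
    (a : SP N (Polynomial A)) :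
    ev0 N B (spm N (Polynomial.mapRingHom f) a) = spm N f (ev0 N A a) := by
  apply SP.ext'
  ext i j
  change Polynomial.constantCoeff (Polynomial.mapRingHom f _) = f (Polynomial.constantCoeff _)
  simp

namespace BunObj

/-- the localization `A_θ` -/
abbrev lo (X : BunObj N d) : BGObj N := ⟨⟨Lo X.th⟩⟩

theorem isUnit_map {X Y : BunObj N d} (φ : BunHom X Y) :
    IsUnit (algebraMap Y.A.R (Lo Y.th) (φ.f X.th)) := by
  have h1 : IsUnit (algebraMap Y.A.R (Lo Y.th) Y.th) :=
    IsLocalization.Away.algebraMap_isUnit Y.th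
  have h2 : algebraMap Y.A.R (Lo Y.th) Y.th =
      algebraMap Y.A.R (Lo Y.th) (φ.dl : Y.A.R) * algebraMap Y.A.R (Lo Y.th) (φ.f X.th) := by
    rw [← map_mul, ← th_map φ]
  rw [h2] at h1
  exact isUnit_of_mul_isUnit_right h1

end BunObj

/-- The functor from test objects of `Bun` to test objects of `BSp_N`: the restriction of the bundle
to `z = 0`, over the locus `θ ≠ 0`. -/
def Lmap {X Y : BunObj N d} (φ : X ⟶ Y) : X.lo ⟶ Y.lo :=
  (⟨locMap (BunHom.f φ) (BunObj.isUnit_map φ),
    spm N (algebraMap Y.A.R (Lo Y.th)) (ev0 N Y.A.R (BunHom.a φ))⟩ :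
      BGHom X.lo Y.lo)

theorem Lmap_id (X : BunObj N d) : Lmap (𝟙 X) = 𝟙 X.lo := by
  apply BGHom.ext
  · apply lo_hom_ext
    intro a
    exact locMap_algebraMap (BunHom.f (𝟙 X)) (BunObj.isUnit_map (𝟙 X)) a
  · change spm N (algebraMap X.A.R (Lo X.th)) (ev0 N X.A.R 1) = 1
    rw [map_one, map_one]

theorem Lmap_comp {X Y Z : BunObj N d} (φ : X ⟶ Y) (ψ : Y ⟶ Z) :
    Lmap (φ ≫ ψ) = Lmap φ ≫ Lmap ψ := by
  apply BGHom.ext
  · apply lo_hom_ext
    intro a
    refine (locMap_algebraMap (BunHom.f (φ ≫ ψ)) (BunObj.isUnit_map (φ ≫ ψ)) a).trans ?_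
    change _ = locMap (BunHom.f ψ) (BunObj.isUnit_map ψ)
      (locMap (BunHom.f φ) (BunObj.isUnit_map φ) _)
    rw [locMap_algebraMap, locMap_algebraMap]
    rfl
  · change spm N (algebraMap Z.A.R (Lo Z.th))
      (ev0 N Z.A.R (BunHom.a ψ * spm N (Polynomial.mapRingHom (BunHom.f ψ : Y.A.R →+* Z.A.R)) (BunHom.a φ))) =
      spm N (algebraMap Z.A.R (Lo Z.th)) (ev0 N Z.A.R (BunHom.a ψ)) *
      spm N (locMap (BunHom.f ψ) (BunObj.isUnit_map ψ) : _ →+* _)
        (spm N (algebraMap Y.A.R (Lo Y.th)) (ev0 N Y.A.R (BunHom.a φ)))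
    rw [map_mul, map_mul]
    congr 1
    rw [ev0_slm]
    apply SP.ext'
    ext i j
    exact (locMap_algebraMap (BunHom.f ψ) (BunObj.isUnit_map ψ) _).symm

/-- `s v(θ)/θ` -/
def tw (X : BunObj N d) (s : ℂ) (v : Derivation ℂ X.A.R X.A.R) : Lo X.th :=
  algebraMap ℂ (Lo X.th) s *
    (IsLocalization.Away.invSelf X.th * algebraMap X.A.R (Lo X.th) (v X.th))

theorem mul_invSelf (X : BunObj N d) :
    algebraMap X.A.R (Lo X.th) X.th * IsLocalization.Away.invSelf X.th = 1 :=
  IsLocalization.Away.mul_invSelf X.th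

theorem der_invSelf (X : BunObj N d) (v : Derivation ℂ X.A.R X.A.R) :
    locDer X.th v (IsLocalization.Away.invSelf X.th) =
      - (IsLocalization.Away.invSelf X.th * IsLocalization.Away.invSelf X.th *
        algebraMap X.A.R (Lo X.th) (v X.th)) := by
  have h := congrArg (locDer X.th v) (mul_invSelf X)
  rw [Derivation.leibniz, Derivation.map_one_eq_zero, locDer_algebraMap, smul_eq_mul,
    smul_eq_mul] at h
  have h2 := congrArg (IsLocalization.Away.invSelf X.th * ·) h
  simp only [mul_add, mul_zero] at h2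
  have h3 := mul_invSelf X
  linear_combination h2 - locDer X.th v (IsLocalization.Away.invSelf X.th) * h3

theorem tw_lie (X : BunObj N d) (s : ℂ) (v w : Derivation ℂ X.A.R X.A.R) :
    tw X s ⁅v, w⁆ = locDer X.th v (tw X s w) - locDer X.th w (tw X s v) := by
  simp only [tw, Derivation.leibniz, smul_eq_mul, der_invSelf, locDer_algebraMap,
    Derivation.commutator_apply, map_sub, Derivation.map_algebraMap]
  ring

theorem invSelf_map {X Y : BunObj N d} (φ : BunHom X Y) :
    (IsLocalization.Away.invSelf Y.th : Lo Y.th) =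
      algebraMap Y.A.R (Lo Y.th) ((φ.dl⁻¹ : (Y.A.R)ˣ) : Y.A.R) *
        locMap φ.f (BunObj.isUnit_map φ) (IsLocalization.Away.invSelf X.th) := by
  have h1 := mul_invSelf Y
  have h2 := congrArg (locMap φ.f (BunObj.isUnit_map φ)) (mul_invSelf X)
  rw [map_mul, map_one, locMap_algebraMap] at h2
  have h3 : algebraMap Y.A.R (Lo Y.th) Y.th =
      algebraMap Y.A.R (Lo Y.th) (φ.dl : Y.A.R) * algebraMap Y.A.R (Lo Y.th) (φ.f X.th) := by
    rw [← map_mul, ← BunObj.th_map φ]
  have h4 : algebraMap Y.A.R (Lo Y.th) (φ.dl : Y.A.R) *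
      algebraMap Y.A.R (Lo Y.th) ((φ.dl⁻¹ : (Y.A.R)ˣ) : Y.A.R) = 1 := by
    rw [← map_mul, Units.mul_inv, map_one]
  rw [h3] at h1
  generalize (IsLocalization.Away.invSelf Y.th : Lo Y.th) = y at *
  generalize locMap φ.f (BunObj.isUnit_map φ) (IsLocalization.Away.invSelf X.th) = x at *
  generalize algebraMap Y.A.R (Lo Y.th) (φ.dl : Y.A.R) = u at *
  generalize algebraMap Y.A.R (Lo Y.th) ((φ.dl⁻¹ : (Y.A.R)ˣ) : Y.A.R) = u' at *
  generalize algebraMap Y.A.R (Lo Y.th) (φ.f X.th) = t at *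
  linear_combination (u' * x) * h1 - y * t * x * h4 - y * h2

theorem tw_map {X Y : BunObj N d} (φ : BunHom X Y) (s : ℂ) (w : Derivation ℂ Y.A.R Y.A.R) (k : ℕ)
    (c : Fin k → Y.A.R) (v : Fin k → Derivation ℂ X.A.R X.A.R)
    (h : ∀ a : X.A.R, w (φ.f a) = ∑ i, c i * φ.f (v i a)) :
    tw Y s w = ∑ i, algebraMap Y.A.R (Lo Y.th) (c i) *
        locMap φ.f (BunObj.isUnit_map φ) (tw X s (v i)) +
      algebraMap Y.A.R (Lo Y.th) (algebraMap ℂ Y.A.R s * ((φ.dl⁻¹ : (Y.A.R)ˣ) : Y.A.R) *
        w (φ.dl : Y.A.R)) := by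
  have h1 : ∑ i, algebraMap Y.A.R (Lo Y.th) (c i) *
        locMap φ.f (BunObj.isUnit_map φ) (tw X s (v i)) =
      algebraMap ℂ (Lo Y.th) s *
        locMap φ.f (BunObj.isUnit_map φ) (IsLocalization.Away.invSelf X.th) *
        algebraMap Y.A.R (Lo Y.th) (w (φ.f X.th)) := by
    rw [h, map_sum, Finset.mul_sum]
    refine Finset.sum_congr rfl fun i _ => ?_
    rw [tw, map_mul, map_mul, AlgHom.commutes, locMap_algebraMap, map_mul]
    ring
  have h3 : algebraMap Y.A.R (Lo Y.th) (w Y.th) =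
      algebraMap Y.A.R (Lo Y.th) (w (φ.dl : Y.A.R)) * algebraMap Y.A.R (Lo Y.th) (φ.f X.th) +
      algebraMap Y.A.R (Lo Y.th) (φ.dl : Y.A.R) * algebraMap Y.A.R (Lo Y.th) (w (φ.f X.th)) := by
    rw [← map_mul, ← map_mul, ← map_add]
    have : w Y.th = w ((φ.dl : Y.A.R) * φ.f X.th) := by rw [← BunObj.th_map φ]
    rw [this, Derivation.leibniz, smul_eq_mul, smul_eq_mul]
    congr 1
    ring
  have h2 := congrArg (locMap φ.f (BunObj.isUnit_map φ)) (mul_invSelf X)
  rw [map_mul, map_one, locMap_algebraMap] at h2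
  have h4 : algebraMap Y.A.R (Lo Y.th) (φ.dl : Y.A.R) *
      algebraMap Y.A.R (Lo Y.th) ((φ.dl⁻¹ : (Y.A.R)ˣ) : Y.A.R) = 1 := by
    rw [← map_mul, Units.mul_inv, map_one]
  have h5 : algebraMap Y.A.R (Lo Y.th) (algebraMap ℂ Y.A.R s) = algebraMap ℂ (Lo Y.th) s :=
    (IsScalarTower.algebraMap_apply ℂ Y.A.R (Lo Y.th) s).symm
  rw [h1, tw, h3, invSelf_map φ, map_mul, map_mul, h5]
  generalize locMap φ.f (BunObj.isUnit_map φ) (IsLocalization.Away.invSelf X.th) = x at *
  generalize algebraMap Y.A.R (Lo Y.th) (φ.dl : Y.A.R) = u at *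
  generalize algebraMap Y.A.R (Lo Y.th) ((φ.dl⁻¹ : (Y.A.R)ˣ) : Y.A.R) = u' at *
  generalize algebraMap Y.A.R (Lo Y.th) (φ.f X.th) = t at *
  generalize algebraMap ℂ (Lo Y.th) s = s' at *
  generalize algebraMap Y.A.R (Lo Y.th) (w (φ.dl : Y.A.R)) = p at *
  generalize algebraMap Y.A.R (Lo Y.th) (w (φ.f X.th)) = q at *
  linear_combination (s' * u' * p) * h2 + (s' * x * q) * h4

theorem locDer_map {X Y : BunObj N d} (φ : BunHom X Y) (w : Derivation ℂ Y.A.R Y.A.R) (k : ℕ)
    (c : Fin k → Y.A.R) (v : Fin k → Derivation ℂ X.A.R X.A.R)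
    (h : ∀ a : X.A.R, w (φ.f a) = ∑ i, c i * φ.f (v i a)) (x : Lo X.th) :
    locDer Y.th w (locMap φ.f (BunObj.isUnit_map φ) x) =
      ∑ i, algebraMap Y.A.R (Lo Y.th) (c i) *
        locMap φ.f (BunObj.isUnit_map φ) (locDer X.th (v i) x) := by
  have := leibniz_zero X.th (locMap φ.f (BunObj.isUnit_map φ) : Lo X.th →+* Lo Y.th)
    (fun x => locDer Y.th w (locMap φ.f (BunObj.isUnit_map φ) x) -
      ∑ i, algebraMap Y.A.R (Lo Y.th) (c i) *
        locMap φ.f (BunObj.isUnit_map φ) (locDer X.th (v i) x)) (fun x y => by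
      simp only [map_mul, Derivation.leibniz, smul_eq_mul, map_add, mul_add,
        Finset.sum_add_distrib, mul_sub, Finset.mul_sum, RingHom.coe_coe]
      have e1 : ∀ i, algebraMap Y.A.R (Lo Y.th) (c i) * (locMap φ.f (BunObj.isUnit_map φ) x *
          locMap φ.f (BunObj.isUnit_map φ) (locDer X.th (v i) y)) =
          locMap φ.f (BunObj.isUnit_map φ) x * (algebraMap Y.A.R (Lo Y.th) (c i) *
          locMap φ.f (BunObj.isUnit_map φ) (locDer X.th (v i) y)) := fun i => by ring
      have e2 : ∀ i, algebraMap Y.A.R (Lo Y.th) (c i) * (locMap φ.f (BunObj.isUnit_map φ) y *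
          locMap φ.f (BunObj.isUnit_map φ) (locDer X.th (v i) x)) =
          locMap φ.f (BunObj.isUnit_map φ) y * (algebraMap Y.A.R (Lo Y.th) (c i) *
          locMap φ.f (BunObj.isUnit_map φ) (locDer X.th (v i) x)) := fun i => by ring
      simp only [e1, e2]
      ring) (fun a => by
      simp only [locMap_algebraMap, locDer_algebraMap, h, map_sum, map_mul, sub_self]) x
  exact sub_eq_zero.1 this

instance modBun {s : ℂ} (F : TDMod (Bun N d) s) (X : BunObj N d) : Module X.A.R (F.M X) :=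
  F.mod X

instance modBG {s : ℂ} (G : TDMod (BG N d) s) (X : BGObj N) : Module X.A.R (G.M X) :=
  G.mod X

instance modLo {s : ℂ} (G : TDMod (BG N d) s) (X : BunObj N d) : Module (Lo X.th) (G.M X.lo) :=
  G.mod X.lo

/-- The functor `B` on objects. -/
def Bobj (s : ℂ) (G : TDMod (BG N d) 0) : TDMod (Bun N d) s where
  M X := G.M X.lo
  grp X := G.grp X.lo
  mod X := Module.compHom (G.M X.lo) (algebraMap X.A.R (Lo X.th))
  act X v m := G.act X.lo (locDer X.th v) m - tw X s v • m
  act_add X v m m' := by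
    rw [G.act_add, smul_add]; abel
  add_act X v w m := by
    rw [locDer_add, G.add_act]
    have : tw X s (v + w) = tw X s v + tw X s w := by
      simp only [tw, Derivation.add_apply, map_add]; ring
    rw [this, add_smul]; abel
  smul_act X a v m := by
    rw [locDer_smul, G.smul_act]
    have : tw X s (a • v) = algebraMap X.A.R (Lo X.th) a * tw X s v := by
      simp only [tw, Derivation.smul_apply, smul_eq_mul, map_mul]; ring
    rw [this, mul_smul, ← smul_sub]
    rfl
  leibniz X v a m := by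
    change G.act X.lo (locDer X.th v) (algebraMap X.A.R (Lo X.th) a • m) - _ = _
    rw [G.leibniz, locDer_algebraMap]
    change _ - tw X s v • (algebraMap X.A.R (Lo X.th) a • m) =
      algebraMap X.A.R (Lo X.th) (v a) • m + algebraMap X.A.R (Lo X.th) a •
        (G.act X.lo (locDer X.th v) m - tw X s v • m)
    rw [smul_sub, smul_comm (tw X s v)]
    abel
  lie_act X v w m := by
    rw [locDer_lie, G.lie_act, G.act_sub, G.act_sub, tw_lie, sub_smul]
    have h1 : G.act X.lo (locDer X.th v) (tw X s w • m) =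
        locDer X.th v (tw X s w) • m + tw X s w • G.act X.lo (locDer X.th v) m :=
      G.leibniz X.lo (locDer X.th v) (tw X s w) m
    have h2 : G.act X.lo (locDer X.th w) (tw X s v • m) =
        locDer X.th w (tw X s v) • m + tw X s v • G.act X.lo (locDer X.th w) m :=
      G.leibniz X.lo (locDer X.th w) (tw X s v) m
    rw [h1, h2, smul_sub, smul_sub, smul_comm (tw X s v) (tw X s w)]
    abel
  map φ := G.map (Lmap φ)
  map_smul {X Y} φ a m := by
    change G.map (Lmap φ) (algebraMap X.A.R (Lo X.th) a • m) =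
      algebraMap Y.A.R (Lo Y.th) (BunHom.f φ a) • G.map (Lmap φ) m
    refine (G.map_smul (Lmap φ) (algebraMap X.A.R (Lo X.th) a) m).trans ?_
    have h : (BG N d).res (Lmap φ) (algebraMap X.A.R (Lo X.th) a) =
        algebraMap Y.A.R (Lo Y.th) (BunHom.f φ a) :=
      locMap_algebraMap (BunHom.f φ) (BunObj.isUnit_map φ) a
    rw [h]
  map_id X m := by
    rw [Lmap_id]
    exact G.map_id _ m
  map_comp φ ψ m := by
    rw [Lmap_comp]
    exact G.map_comp _ _ m
  map_act {X Y} φ w k c v h m := by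
    have h1 := G.map_act (Lmap φ) (locDer Y.th w) k
      (fun i => algebraMap Y.A.R (Lo Y.th) (c i)) (fun i => locDer X.th (v i))
      (locDer_map φ w k c v h) m
    rw [map_zero, zero_mul, zero_mul, zero_smul, sub_zero] at h1
    have h2 : ∀ i, G.map (Lmap φ) (tw X s (v i) • m) =
        (locMap (BunHom.f φ) (BunObj.isUnit_map φ) (tw X s (v i))) • G.map (Lmap φ) m :=
      fun i => G.map_smul (Lmap φ) (tw X s (v i)) m
    have h3 := tw_map φ s w k c v h
    change G.act Y.lo (locDer Y.th w) (G.map (Lmap φ) m) - tw Y s w • G.map (Lmap φ) m =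
      ∑ i, algebraMap Y.A.R (Lo Y.th) (c i) • G.map (Lmap φ)
        (G.act X.lo (locDer X.th (v i)) m - tw X s (v i) • m) -
      algebraMap Y.A.R (Lo Y.th) (algebraMap ℂ Y.A.R s * ((BunHom.dl φ)⁻¹ : (Y.A.R)ˣ) *
        w (BunHom.dl φ : Y.A.R)) • G.map (Lmap φ) m
    rw [h1, h3]
    simp only [map_sub, h2, smul_sub, Finset.sum_sub_distrib, add_smul, Finset.sum_smul, mul_smul]
    abel
  map_cen X φ h m := by
    obtain ⟨h1, ζ, hζ, ha, -⟩ := h
    apply G.map_cen
    refine ⟨?_, ζ, hζ, ?_⟩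
    · apply lo_hom_ext
      intro a
      refine (locMap_algebraMap (BunHom.f φ) (BunObj.isUnit_map φ) a).trans ?_
      rw [h1]
      rfl
    · ext i j
      change algebraMap X.A.R (Lo X.th) (Polynomial.constantCoeff
        ((BunHom.a φ).1.1 i j)) = _
      rw [ha, Matrix.scalar_apply, Matrix.scalar_apply]
      rw [Matrix.diagonal_apply, Matrix.diagonal_apply]
      split_ifs
      · change algebraMap X.A.R (Lo X.th) (Polynomial.constantCoeff
          (Polynomial.C (algebraMap ℂ X.A.R ζ))) = _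
        rw [Polynomial.constantCoeff_apply, Polynomial.coeff_C_zero]
        exact (IsScalarTower.algebraMap_apply ℂ X.A.R (Lo X.th) ζ).symm
      · simp

/-- The functor `B`. -/
def Bfun (N d : ℕ) (s : ℂ) : TDMod (BG N d) 0 ⥤ TDMod (Bun N d) s where
  obj G := Bobj s G
  map {G G'} f :=
    { app := fun X =>
        { toFun := TDMod.Hom.app f X.lo
          map_add' := map_add (TDMod.Hom.app f X.lo)
          map_smul' := fun (a : X.A.R) (m : G.M X.lo) =>
            map_smul (TDMod.Hom.app f X.lo) (algebraMap X.A.R (Lo X.th) a : (BG N d).R X.lo) m }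
      act := fun X v (m : G.M X.lo) => by
        change TDMod.Hom.app f X.lo (G.act X.lo (locDer X.th v) m - tw X s v • m) =
          G'.act X.lo (locDer X.th v) (TDMod.Hom.app f X.lo m) - tw X s v • TDMod.Hom.app f X.lo m
        rw [map_sub, TDMod.Hom.act]
        congr 1
        exact map_smul (TDMod.Hom.app f X.lo) (tw X s v : (BG N d).R X.lo) m
      nat := fun φ m => TDMod.Hom.nat f (Lmap φ) m }
  map_id G := rfl
  map_comp f g := rfl

instance (N d : ℕ) (s : ℂ) : (Bfun N d s).Additive where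
  map_add {G G' f g} := by
    apply TDMod.hom_ext
    intro X m
    rfl

instance (N d : ℕ) (s : ℂ) : (Bfun N d s).Linear ℂ where
  map_smul f c := by
    apply TDMod.hom_ext
    intro X m
    exact congrArg (· • TDMod.Hom.app f X.lo m)
      (IsScalarTower.algebraMap_apply ℂ X.A.R (Lo X.th) c)

end

end Vale.Agent.P286.Sp
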