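import Vale.Agent.P286.Sp.BunLem

/-!
# The gluing conditions of identities and compositions
-/

namespace Vale.Agent.P286.Sp

noncomputable section

variable {N d : ℕ}

theorem BunObj.glue_id (X : BunObj N d) :
    Glue (SmAlg.Hm.id X.A).r X.g X.g (SPp.one N X.A.R) (SPp.one N X.A.R) := Glue.id X.g

theorem BunHom.glue_comp {X Y Z : BunObj N d} (φ : BunHom X Y) (ψ : BunHom Y Z) :
    Glue (ψ.f.comp φ.f).r X.g Z.g (cmp ψ.f.r ψ.a φ.a) (cmp ψ.f.r ψ.b φ.b) :=
  Glue.comp φ.glue ψ.glue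

end

end Vale.Agent.P286.Sp
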