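import Vale.Agent.P286.Sp.Sym

/-!
# Lemmas on gluing data
-/

namespace Vale.Agent.P286.Sp

open CategoryTheory LaurentPolynomial

noncomputable section

variable {N d : ℕ} {A B D : Type} [CommRing A] [CommRing B] [CommRing D]

theorem map_pos (f : A →+* B) (a : SP N (Polynomial A)) :
    gsm N (lmap f) (pos N A a) = pos N B (spm N (Polynomial.mapRingHom f) a) := by
  show gsm N (lmap f) (incS N A[T;T⁻¹] (spm N (ringPos A) a)) =
    incS N B[T;T⁻¹] (spm N (ringPos B) (spm N (Polynomial.mapRingHom f) a))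
  rw [gsm_incS, spm_spm, spm_spm]
  exact congrArg (fun h => incS N B[T;T⁻¹] (spm N h a)) (lmap_toLaurent f)

theorem map_neg (f : A →+* B) (a : SP N (Polynomial A)) :
    gsm N (lmap f) (neg N A a) = neg N B (spm N (Polynomial.mapRingHom f) a) := by
  show gsm N (lmap f) (incS N A[T;T⁻¹] (spm N (ringNeg A) a)) =
    incS N B[T;T⁻¹] (spm N (ringNeg B) (spm N (Polynomial.mapRingHom f) a))
  rw [gsm_incS, spm_spm, spm_spm]
  exact congrArg (fun h => incS N B[T;T⁻¹] (spm N h a)) (lmap_comp_neg f)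

theorem lmap_id' : lmap (RingHom.id A) = RingHom.id A[T;T⁻¹] := RingHom.ext fun x => lmap_id x

theorem lmap_comp' (f : A →+* B) (g : B →+* D) : (lmap g).comp (lmap f) = lmap (g.comp f) :=
  RingHom.ext fun x => lmap_lmap f g x

theorem gsm_id (x : GS N A) : gsm N (RingHom.id A) x = x := GS.ext' rfl (Units.ext rfl)

theorem spm_lmap_id (g : GS N A[T;T⁻¹]) : gsm N (lmap (RingHom.id A)) g = g := by
  rw [lmap_id', gsm_id]

theorem spm_lmap_comp (f : A →+* B) (g : B →+* D) (x : GS N A[T;T⁻¹]) :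
    gsm N (lmap g) (gsm N (lmap f) x) = gsm N (lmap (g.comp f)) x := by
  rw [gsm_gsm, lmap_comp']

theorem spm_poly_id (a : SP N (Polynomial A)) :
    spm N (Polynomial.mapRingHom (RingHom.id A)) a = a := by
  rw [Polynomial.mapRingHom_id]
  rfl

theorem spm_poly_comp (f : A →+* B) (g : B →+* D) (a : SP N (Polynomial A)) :
    spm N (Polynomial.mapRingHom g) (spm N (Polynomial.mapRingHom f) a) =
      spm N (Polynomial.mapRingHom (g.comp f)) a := by
  rw [spm_spm, Polynomial.mapRingHom_comp]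

theorem Glue.id (g : GS N A[T;T⁻¹]) : Glue (RingHom.id A) g g 1 1 := by
  apply Glue.mk
  rw [map_one, map_one, one_mul, mul_one, spm_lmap_id]

theorem Glue.comp {f : A →+* B} {g : B →+* D} {x : GS N A[T;T⁻¹]} {y : GS N B[T;T⁻¹]}
    {z : GS N D[T;T⁻¹]} {a b : SP N (Polynomial B)} {a' b' : SP N (Polynomial D)}
    (h : Glue f x y a b) (h' : Glue g y z a' b') :
    Glue (g.comp f) x z (cmp g a' a) (cmp g b' b) := by
  have h3 := congrArg (gsm N (lmap g)) h.eq
  replace h' := h'.eq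
  apply Glue.mk
  rw [cmp_eq, cmp_eq]
  rw [map_mul, map_mul, map_neg, map_pos, spm_lmap_comp] at h3
  rw [map_mul, map_mul, ← mul_assoc, h', mul_assoc, h3, mul_assoc]

theorem cmp_one_right (f : A →+* B) (x : SP N (Polynomial B)) : cmp f x 1 = x := by
  rw [cmp_eq, map_one, mul_one]

theorem cmp_one_left (x : SP N (Polynomial A)) : cmp (RingHom.id A) 1 x = x := by
  rw [cmp_eq, one_mul, spm_poly_id]

theorem cmp_assoc (f : A →+* B) (g : B →+* D) (x : SP N (Polynomial D)) (y : SP N (Polynomial B))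
    (z : SP N (Polynomial A)) : cmp g x (cmp f y z) = cmp (g.comp f) (cmp g x y) z := by
  rw [cmp_eq, cmp_eq, cmp_eq, cmp_eq, map_mul, spm_poly_comp, mul_assoc]

theorem cmp_assoc' {A B D : SmAlg} (f : A.Hm B) (g : B.Hm D) (x : SP N (Polynomial D.R))
    (y : SP N (Polynomial B.R)) (z : SP N (Polynomial A.R)) :
    cmp g.r x (cmp f.r y z) = cmp (SmAlg.Hm.comp g f).r (cmp g.r x y) z := by
  have h : (SmAlg.Hm.comp g f).r = g.r.comp f.r := rfl
  rw [h, cmp_assoc]

theorem BunHom.ext {X Y : BunObj N d} {φ ψ : BunHom X Y} (h1 : φ.f = ψ.f)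
    (h2 : φ.a = ψ.a) (h3 : φ.b = ψ.b) : φ = ψ := by
  cases φ
  cases ψ
  subst h1 h2 h3
  rfl

end

end Vale.Agent.P286.Sp
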