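import Vale.Agent.P286.Sp.BunGl

/-!
# The composition of morphisms of test objects
-/

namespace Vale.Agent.P286.Sp

open CategoryTheory

noncomputable section

/-- The identity. -/
def BunHom.id {N d : ℕ} (X : BunObj N d) : BunHom X X :=
  ⟨SmAlg.Hm.id X.A, SPp.one N X.A.R, SPp.one N X.A.R, X.glue_id⟩

/-- The composition. -/
def BunHom.comp {N d : ℕ} {X Y Z : BunObj N d} (φ : BunHom X Y) (ψ : BunHom Y Z) : BunHom X Z :=
  ⟨ψ.f.comp φ.f, cmp ψ.f.r ψ.a φ.a, cmp ψ.f.r ψ.b φ.b, φ.glue_comp ψ⟩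

instance (N d : ℕ) : CategoryStruct.{0} (BunObj N d) where
  Hom X Y := BunHom X Y
  id := BunHom.id
  comp := BunHom.comp

/-- The identity. -/
def BGHom.id {N : ℕ} (X : BGObj N) : BGHom X X := ⟨SmAlg.Hm.id X.A, 1⟩

/-- The composition. -/
def BGHom.comp {N : ℕ} {X Y Z : BGObj N} (φ : BGHom X Y) (ψ : BGHom Y Z) : BGHom X Z :=
  ⟨ψ.f.comp φ.f, gcmp ψ.f.r ψ.h φ.h⟩

instance (N : ℕ) : CategoryStruct.{0} (BGObj N) where
  Hom X Y := BGHom X Y
  id := BGHom.id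
  comp := BGHom.comp

end

end Vale.Agent.P286.Sp
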