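import Vale.Agent.P286.St.TD
import Vale.Agent.P286.Sp.Bun

/-!
# The test categories of `Bun_{Sp_N/μ_d}(ℙ¹)` with its canonical bundle, and of `BSp_N`
-/

namespace Vale.Agent.P286.Sp

open CategoryTheory

noncomputable section

/-- The stack `Bun_{Sp_N/μ_d}(ℙ¹)` with its canonical bundle `ω` and the twist `s`, given by its
test objects. -/
def BunSP (N d : ℕ) (s : ℂ) : St.TSite where
  C := BunObj N d
  A := BunObj.A
  f := BunHom.f
  dl {X Y} φ := delta (BunHom.f φ).r (BunHom.a φ) (BunHom.b φ) X.S Y.S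
  cen X := {φ : X ⟶ X | BunHom.f φ = SmAlg.Hm.id X.A ∧
    ∃ ζ : ℂ, ζ ^ d = 1 ∧ IsScal ζ (BunHom.a φ) ∧ IsScal ζ (BunHom.b φ)}
  s := s

/-- The classifying stack of `Sp_N` (without twist), given by its test objects. -/
def BSP (N : ℕ) : St.TSite where
  C := BGObj N
  A := BGObj.A
  f := BGHom.f
  dl _ := 1
  cen X := {𝟙 X}
  s := 0

end

end Vale.Agent.P286.Sp
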