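import Vale.Agent.P286.Sp.JFun

/-! Canonical factorisation of `Sp_N`-bundles where the Toeplitz operator is invertible. -/

namespace Vale.Agent.P286.Sp

open LaurentPolynomial Matrix

noncomputable section

variable {N : ℕ} {A B : Type} [CommRing A] [CommRing B]

/-- The underlying element of `GL_N`. -/
def GS.gl (g : GS N A) : Matrix.GeneralLinearGroup (Fin N) A :=
  ⟨g.m, g.m⁻¹, Matrix.mul_nonsing_inv _ g.isUnit_det, Matrix.nonsing_inv_mul _ g.isUnit_det⟩

theorem GS.gl_val (g : GS N A) : (g.gl : Matrix (Fin N) (Fin N) A) = g.m := rfl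

theorem mp_lmap (f : A →+* B) (g : GS N A[T;T⁻¹]) : (gsm N (lmap f) g).m = mp f g.m := rfl

theorem mp_fm (f : A →+* B) : mp f (fm N A[T;T⁻¹]) = fm N B[T;T⁻¹] := fm_map (lmap f)

theorem inv_u {u : A[T;T⁻¹]ˣ} {k : ℤ} (h : (u : A[T;T⁻¹]) = T k) :
    ((u⁻¹ : A[T;T⁻¹]ˣ) : A[T;T⁻¹]) = T (-k) := by
  calc ((u⁻¹ : A[T;T⁻¹]ˣ) : A[T;T⁻¹]) = ((u⁻¹ : A[T;T⁻¹]ˣ) : A[T;T⁻¹]) * (T k * T (-k)) := by
        rw [← T_add, add_neg_cancel, T_zero, mul_one]
    _ = T (-k) := by rw [← h, ← mul_assoc, Units.inv_mul, one_mul]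

theorem gsm_u (f : A →+* B) {g : GS N A[T;T⁻¹]} {k : ℤ} (h : (g.u : A[T;T⁻¹]) = T k) :
    ((gsm N (lmap f) g).u : B[T;T⁻¹]) = T k := by
  show lmap f (g.u : A[T;T⁻¹]) = T k
  rw [h, lmap_T]

theorem GS.det_T (hN : Even N) {g : GS N A[T;T⁻¹]} {k : ℤ} (h : (g.u : A[T;T⁻¹]) = T k) :
    ∃ D : ℤ, g.m.det = T D ∧ 2 * D = N * k := by
  obtain ⟨m, hm⟩ := hN
  refine ⟨(N / 2 : ℕ) * k, ?_, ?_⟩
  · rw [g.hd, h, T_pow]
  · have h2 : ((N / 2 : ℕ) : ℤ) = m := by omega
    have h3 : (N : ℤ) = m + m := by omega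
    rw [h2, h3]
    ring

theorem MGE.fm : MGE 0 (Sp.fm N A[T;T⁻¹]) := by
  have h : Sp.fm N A[T;T⁻¹] = (Sp.fm N A).map LaurentPolynomial.C := (fm_map _).symm
  rw [h]
  exact fun i j => GE.C _

theorem MLE.fm : MLE 0 (Sp.fm N A[T;T⁻¹]) := by
  have h : Sp.fm N A[T;T⁻¹] = (Sp.fm N A).map LaurentPolynomial.C := (fm_map _).symm
  rw [h]
  exact fun i j => LE.C _

theorem exists_pos (X : Matrix (Fin N) (Fin N) A[T;T⁻¹]) (h : MGE 0 X) (hd : X.det = 1)
    (ho : X.transpose * fm N A[T;T⁻¹] * X = fm N A[T;T⁻¹]) :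
    ∃ a : SP N (Polynomial A), (pos N A a).m = X := by
  obtain ⟨a, ha⟩ := exists_posGL X h hd
  have ha' : (a : Matrix (Fin N) (Fin N) (Polynomial A)).map (Polynomial.toLaurent (R := A)) = X := ha
  refine ⟨⟨a, ?_⟩, ha'⟩
  show (a : Matrix (Fin N) (Fin N) (Polynomial A)).transpose * fm N (Polynomial A) *
    (a : Matrix (Fin N) (Fin N) (Polynomial A)) = fm N (Polynomial A)
  have h2 : Function.Injective ((Polynomial.toLaurent (R := A)).mapMatrix (m := Fin N)) := by
    intro x y hxy
    ext1 i j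
    apply Polynomial.toLaurent_injective
    exact congrFun (congrFun hxy i) j
  have e1 : (Polynomial.toLaurent (R := A)).mapMatrix (fm N (Polynomial A)) = fm N A[T;T⁻¹] :=
    fm_map _
  apply h2
  rw [map_mul, map_mul, e1]
  rw [← ha'] at ho
  exact ho

theorem exists_neg (X : Matrix (Fin N) (Fin N) A[T;T⁻¹]) (h : MLE 0 X) (hd : X.det = 1)
    (ho : X.transpose * fm N A[T;T⁻¹] * X = fm N A[T;T⁻¹]) :
    ∃ a : SP N (Polynomial A), (neg N A a).m = X := by
  obtain ⟨a, ha⟩ := exists_negGL X h hd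
  have ha' : (a : Matrix (Fin N) (Fin N) (Polynomial A)).map (ringNeg A) = X := ha
  refine ⟨⟨a, ?_⟩, ha'⟩
  show (a : Matrix (Fin N) (Fin N) (Polynomial A)).transpose * fm N (Polynomial A) *
    (a : Matrix (Fin N) (Fin N) (Polynomial A)) = fm N (Polynomial A)
  have h2 : Function.Injective ((ringNeg A).mapMatrix (m := Fin N)) := by
    intro x y hxy
    ext1 i j
    apply ringNeg_injective
    exact congrFun (congrFun hxy i) j
  have e1 : (ringNeg A).mapMatrix (fm N (Polynomial A)) = fm N A[T;T⁻¹] :=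
    fm_map _
  apply h2
  rw [map_mul, map_mul, e1]
  rw [← ha'] at ho
  exact ho

theorem ev0_m (a : SP N (Polynomial A)) : (ev0 N A a).m = cf 0 (pos N A a).m := by
  ext i j
  show Polynomial.constantCoeff (a.m i j) = (Polynomial.toLaurent (a.m i j)).coeff 0
  rw [LaurentPolynomial.coeff_toLaurent]
  exact (Finsupp.mapDomain_apply (Nat.castEmbedding (R := ℤ)).injective
    (a.m i j).toFinsupp.coeff 0).symm

/-- The exponents of a bundle with `H⁰(S²E(-k-1)) = 0`. -/
theorem exponents_zero (hN : 0 < N) (k : ℕ) (hk : k < 2) (l : Fin N → ℤ)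
    (hs : 2 * ∑ i, l i = N * (k : ℤ)) (h : ∀ p, 2 * l p ≤ k) : k = 0 ∧ l = 0 := by
  have h4 : ∑ i, (2 * l i - k) = 0 := by
    rw [Finset.sum_sub_distrib, ← Finset.mul_sum, Finset.sum_const, Finset.card_univ,
      Fintype.card_fin, nsmul_eq_mul]
    linarith
  have h5 : ∀ p, 2 * l p - k = 0 := fun p =>
    (Finset.sum_eq_zero_iff_of_nonpos (s := Finset.univ) (f := fun i => 2 * l i - (k : ℤ))
      (fun i _ => by have := h i; omega)).1 h4 p (Finset.mem_univ p)
  have h6 := h5 ⟨0, hN⟩
  have hk0 : k = 0 := by omega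
  refine ⟨hk0, ?_⟩
  funext p
  have := h5 p
  simp only [Pi.zero_apply]
  omega

/-- Over a field: a symplectic bundle `E` such that `S²E(-k-1)` has no cohomology is trivial; then
the left Toeplitz operator is onto. -/
theorem field_case {F : Type} [Field F] (hN0 : 0 < N) (hN : Even N) (g : GS N F[T;T⁻¹]) (k : ℕ)
    (hk : k < 2) (hgu : (g.u : F[T;T⁻¹]) = T (k : ℤ))
    (hinj : ∀ x, toep g x = 0 → x = 0) : k = 0 ∧ ∀ y, ∃ x, ltoep g.m x = y := by
  obtain ⟨D, hD, hD2⟩ := GS.det_T hN hgu
  obtain ⟨a, b, l, ha, ha1, hb, hb1, hab, hl⟩ := birkhoff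
    g.m g.m⁻¹ (Matrix.mul_nonsing_inv _ g.isUnit_det) hD
  have ha' := adjugate_mul_self ha1
  have hb' := adjugate_mul_self hb1
  have ha'' := self_mul_adjugate ha1
  have hb'' := self_mul_adjugate hb1
  have e1 : g.m = a.adjugate * (mono l * b) := by
    rw [← hab, ← Matrix.mul_assoc, ha', Matrix.one_mul]
  have hle : ∀ p, 2 * l p ≤ k := by
    intro p
    by_contra hlt
    rw [not_le] at hlt
    set E : Matrix (Fin N) (Fin N) F[T;T⁻¹] := Matrix.single p p 1 with hE
    set X := b.adjugate * (E * b.adjugate.transpose) with hX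
    have hEA : IsSy E := by
      unfold IsSy
      rw [hE, Matrix.transpose_single]
    have hEL : MLE 0 E := by
      intro i j
      rw [hE, Matrix.single_apply]
      split_ifs <;> first | exact LE.one | exact LE.zero _
    have hXA : IsSy X := hEA.conj _
    have hXL : MLE 0 X := by
      have := hb.adjugate.mul (hEL.mul (MLE.tr hb.adjugate))
      simpa using this
    have h1 : toep g (apart N F X) = 0 := by
      rw [toep_def, inv_u hgu, sytoep_apply, toSym_apart hXL hXA]
      have e3 : g.m * (X * g.m.transpose) =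
          a.adjugate * ((mono l * (E * mono l)) * a.adjugate.transpose) := by
        have hm : (mono l : Matrix (Fin N) (Fin N) F[T;T⁻¹]).transpose = mono l := by
          rw [mono, Matrix.diagonal_transpose]
        have hbt : b.adjugate.transpose * b.transpose = 1 := by
          rw [← Matrix.transpose_mul, hb'', Matrix.transpose_one]
        rw [e1, hX, Matrix.transpose_mul, Matrix.transpose_mul, hm]
        calc a.adjugate * (mono l * b) * (b.adjugate * (E * b.adjugate.transpose) *
              (b.transpose * mono l * a.adjugate.transpose)) =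
            a.adjugate * (mono l * (b * b.adjugate) * E * (b.adjugate.transpose * b.transpose) *
              mono l) * a.adjugate.transpose := by
              simp only [Matrix.mul_assoc]
          _ = _ := by rw [hb'', hbt, Matrix.mul_one, Matrix.mul_one]; simp only [Matrix.mul_assoc]
      have e4 : MGE 1 ((T (-(k : ℤ)) : F[T;T⁻¹]) • (mono l * (E * mono l))) := by
        intro i j
        rw [Matrix.smul_apply, smul_eq_mul, mono, Matrix.diagonal_mul, Matrix.mul_diagonal, hE,
          Matrix.single_apply]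
        split_ifs with h
        · obtain ⟨rfl, rfl⟩ := h
          rw [one_mul, ← T_add, ← T_add]
          exact (GE.T _).mono (by omega)
        · rw [zero_mul, mul_zero, mul_zero]; exact GE.zero _
      have e5 : (T (-(k : ℤ)) : F[T;T⁻¹]) • (g.m * (X * g.m.transpose)) =
          a.adjugate * (((T (-(k : ℤ)) : F[T;T⁻¹]) • (mono l * (E * mono l))) *
            a.adjugate.transpose) := by
        rw [e3, Matrix.smul_mul, Matrix.mul_smul]
      rw [e5]
      apply apart_eq_zero
      have := ha.adjugate.mul (e4.mul (MGE.tr ha.adjugate))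
      simpa using this
    have h2 := hinj _ h1
    have h3 : X = 0 := by
      rw [← toSym_apart hXL hXA, h2, map_zero]
    have h4 : E = 0 := by
      have hbt : b.adjugate.transpose * b.transpose = 1 := by
        rw [← Matrix.transpose_mul, hb'', Matrix.transpose_one]
      calc E = (b * b.adjugate) * E * (b.adjugate.transpose * b.transpose) := by
            rw [hb'', hbt, Matrix.one_mul, Matrix.mul_one]
        _ = b * X * b.transpose := by rw [hX]; simp only [Matrix.mul_assoc]
        _ = 0 := by rw [h3, Matrix.mul_zero, Matrix.zero_mul]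
    have h5 := congrFun (congrFun h4 p) p
    rw [hE, Matrix.single_apply_same] at h5
    simp at h5
  obtain ⟨hk0, hlz⟩ := exponents_zero hN0 k hk l (by rw [hl]; exact hD2) hle
  refine ⟨hk0, ?_⟩
  intro y
  rw [hlz, mono_zero, Matrix.one_mul] at hab
  set Y := toMat N F y
  refine ⟨npart N F (b.adjugate * toMat N F (npart N F (a * Y))), ?_⟩
  have h6 : MLE 0 (b.adjugate * toMat N F (npart N F (a * Y))) := by
    have := hb.adjugate.mul (toMat_MLE (npart N F (a * Y)))
    simpa using this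
  rw [ltoep_apply, toMat_npart h6]
  have e1 : g.m = a.adjugate * b := by
    rw [← hab, ← Matrix.mul_assoc, ha', Matrix.one_mul]
  have e2 : g.m * (b.adjugate * toMat N F (npart N F (a * Y))) =
      Y - a.adjugate * (a * Y - toMat N F (npart N F (a * Y))) := by
    rw [e1, Matrix.mul_sub, ← Matrix.mul_assoc, Matrix.mul_assoc a.adjugate, hb'', Matrix.mul_one,
      ← Matrix.mul_assoc, ha', Matrix.one_mul]
    abel
  rw [e2, map_sub, npart_toMat, npart_eq_zero, sub_zero]
  have := ha.adjugate.mul (sub_toMat_npart (a * Y))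
  simpa using this

/-- Where the Toeplitz operator of `Ad g` is invertible the bundle is trivial, with a
canonical trivialisation. -/
theorem exists_fact (hN0 : 0 < N) (hN : Even N) (g : GS N B[T;T⁻¹]) (k : ℕ)
    (hk : k < 2) (hgu : (g.u : B[T;T⁻¹]) = T (k : ℤ)) (hu : IsUnit (toep g)) :
    ∃ a b : SP N (Polynomial B), g * neg N B b = pos N B a ∧ ev0 N B a = 1 := by
  rcases subsingleton_or_nontrivial B with hB | hB
  · have hB2 : Subsingleton B[T;T⁻¹] := ⟨fun x y => by
      ext m
      exact Subsingleton.elim _ _⟩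
    refine ⟨1, 1, ?_, ?_⟩
    · apply GS.ext'
      · ext i j m
        exact Subsingleton.elim _ _
      · exact Units.ext (Subsingleton.elim _ _)
    · rw [map_one]
  -- residue fields
  have hres : ∀ (F : Type) [Field F] (π : B →+* F), Function.Surjective π →
      k = 0 ∧ ∀ y, ∃ x, ltoep (mp π (g.gl : Matrix (Fin N) (Fin N) B[T;T⁻¹])) x = y := by
    intro F _ π hπ
    have h1 : IsUnit (toep (gsm N (lmap π) g)) := by
      rw [← bc_toep]
      exact hu.map (bcHom (Jx N) π)
    refine field_case hN0 hN (gsm N (lmap π) g) k hk (gsm_u π hgu) ?_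
    intro x hx
    obtain ⟨u, hu⟩ := h1
    rw [← hu] at hx
    have : ((u⁻¹ : (Module.End F (Jx N →₀ F))ˣ) : Module.End F (Jx N →₀ F))
        ((u : Module.End F (Jx N →₀ F)) x) = x := LinearMap.congr_fun (Units.inv_mul u) x
    rw [← this, hx, map_zero]
  have hk0 : k = 0 := by
    obtain ⟨M, hM⟩ := Ideal.exists_maximal B
    let : Field (B ⧸ M) := Ideal.Quotient.field M
    exact (hres (B ⧸ M) (Ideal.Quotient.mk M) Ideal.Quotient.mk_surjective).1
  have hu1 : g.u = 1 := by
    apply Units.ext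
    rw [hgu, hk0, Units.val_one, Nat.cast_zero, T_zero]
  have hgd : g.m.det = 1 := by rw [g.hd, hu1, Units.val_one, one_pow]
  have hgf : g.m.transpose * fm N B[T;T⁻¹] * g.m = fm N B[T;T⁻¹] := by
    rw [g.hm, hu1, Units.val_one, one_smul]
  obtain ⟨x, hx⟩ := surj_ltoep g.gl (fun F _ π hπ => (hres F π hπ).2) (npart N B 1)
  rw [GS.gl_val, ltoep_apply] at hx
  set Y := toMat N B x with hY
  set X := g.m * Y with hX
  have hYL : MLE 0 Y := toMat_MLE x
  have h1 : MGE 1 (X - 1) := by
    have := sub_toMat_npart X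
    rwa [hx, toMat_npart MLE.one] at this
  have hXG : MGE 0 X := by
    have := (h1.mono (show (0 : ℤ) ≤ 1 by norm_num)).add MGE.one
    simpa using this
  have hX0 : cf 0 X = 1 := by
    have := h1.cf_eq (show (0 : ℤ) < 1 by norm_num)
    rw [cf_sub, cf_one, sub_eq_zero] at this
    exact this
  have hdet : X.det = Y.det := by rw [hX, Matrix.det_mul, hgd, one_mul]
  have hdX : X.det = 1 := by
    have h2 : LE 0 X.det := by rw [hdet]; exact hYL.det.1
    rw [eq_C_of_LE_GE h2 hXG.det.1, hXG.det.2, hX0, Matrix.det_one, map_one]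
  have hXY : X.transpose * fm N B[T;T⁻¹] * X = Y.transpose * fm N B[T;T⁻¹] * Y := by
    rw [hX, Matrix.transpose_mul]
    calc Y.transpose * g.m.transpose * fm N B[T;T⁻¹] * (g.m * Y) =
          Y.transpose * (g.m.transpose * fm N B[T;T⁻¹] * g.m) * Y := by
          simp only [Matrix.mul_assoc]
      _ = _ := by rw [hgf]
  have hXX : X.transpose * fm N B[T;T⁻¹] * X = fm N B[T;T⁻¹] := by
    have h2 : MGE 0 (X.transpose * fm N B[T;T⁻¹] * X) := by
      have := ((MGE.tr hXG).mul MGE.fm).mul hXG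
      simpa using this
    have h3 : MLE 0 (X.transpose * fm N B[T;T⁻¹] * X) := by
      rw [hXY]
      have := ((MLE.tr hYL).mul MLE.fm).mul hYL
      simpa using this
    have h4 : cf 0 (X.transpose * fm N B[T;T⁻¹] * X) = cf 0 (fm N B[T;T⁻¹]) := by
      have h7 : MGE 0 (X.transpose * fm N B[T;T⁻¹]) := by
        have := (MGE.tr hXG).mul MGE.fm
        simpa using this
      have h5 := h7.cf_mul hXG
      have h8 := (MGE.tr hXG).cf_mul (MGE.fm (N := N) (A := B))
      have h6 : cf 0 X.transpose = (cf 0 X).transpose := rfl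
      rw [add_zero, h6, hX0, Matrix.transpose_one, Matrix.one_mul] at h8
      rw [add_zero, hX0, Matrix.mul_one, h8] at h5
      exact h5
    ext1 i j
    rw [eq_C_of_LE_GE (h3 i j) (h2 i j), eq_C_of_LE_GE (MLE.fm (N := N) (A := B) i j)
      (MGE.fm (N := N) (A := B) i j)]
    exact congrArg (fun M : Matrix (Fin N) (Fin N) B => (LaurentPolynomial.C (M i j) : B[T;T⁻¹])) h4
  obtain ⟨a, ha⟩ := exists_pos X hXG hdX hXX
  obtain ⟨b, hb⟩ := exists_neg Y hYL (by rw [← hdet, hdX]) (by rw [← hXY, hXX])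
  refine ⟨a, b, ?_, ?_⟩
  · apply GS.ext'
    · rw [GS.m_mul, ha, hb]
    · rw [GS.u_mul, hu1, neg_u, pos_u, one_mul]
  · apply SP.ext'
    rw [ev0_m, ha, hX0, SP.m_one]

end

end Vale.Agent.P286.Sp
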