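import Vale.Agent.P286.St.Alg

/-!
# The standard symplectic form
-/

namespace Vale.Agent.P286.Sp

/-- The standard symplectic form on `A^N`, `N` even:
`(e_i, e_{N-1-i}) = 1` for `i < N/2` and `(e_i, e_{N-1-i}) = -1` for `i ≥ N/2`. -/
def fm (N : ℕ) (A : Type) [CommRing A] : Matrix (Fin N) (Fin N) A :=
  Matrix.of fun i j => if j = i.rev then (if (i : ℕ) < N / 2 then 1 else -1) else 0

end Vale.Agent.P286.Sp
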