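import Vale.Agent.P286.Sp.Pre

/-!
# The moduli stack of `Sp_N/μ_d`-bundles on the projective line and its canonical bundle

Let `N` be even, `d ∈ {1, 2}` and `G = Sp_N/μ_d`, where `Sp_N(A) = {x ∈ SL_N(A) : xᵀ F x = F}` and `F`
is the standard symplectic form.  Étale locally on the base, a `G`-bundle on `ℙ¹_A` comes from a
bundle of similitudes, i.e. from a vector bundle `E` of rank `N` with a symplectic form
`E ⊗ E → O(k)`, `0 ≤ k < d`, which is trivial on the two charts `Spec A[z]`, `Spec A[z⁻¹]`, i.e. it is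
given by a transition matrix `g` over `A[z,z⁻¹]` with `gᵀ F g = z^k F` (and `det g = z^{k N/2}`); an
isomorphism is (étale locally) a pair `a ∈ Sp_N(A[z])`, `b ∈ Sp_N(A[z⁻¹])` with `g' b = a g`, and
`ζ ∈ μ_d` acts trivially.  So the stack `Bun_G(ℙ¹)` is the stackification of the prestack of these
data.

The Lie algebra `𝔤 = sp_N` is identified with the symmetric matrices by `X ↦ X F`, so that the
adjoint action of `g` is `X ↦ z^{-k} g X gᵀ`.  The canonical bundle `ω` has the fibre
`det RΓ(ℙ¹, 𝔤_E) = det RΓ(ℙ¹, 𝔤_E(-1))` (as `det Ad = 1`), which is the determinant line of the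
Toeplitz operator `toep g : X ↦ (z^{-k} g X gᵀ)_{≤0}` on the symmetric matrices over `A[z⁻¹]`.  A
generator of this line is given by an invertible operator `S` such that `S - toep g` has finite
rank, and the generators `t_S` of two such operators are related by `t_{S'} = fdet (S * S'⁻¹) • t_S`
(Fredholm determinant).
-/

namespace Vale.Agent.P286.Sp

open CategoryTheory LaurentPolynomial

noncomputable section

/-- The group `Sp_N(A) = {x ∈ SL_N(A) : xᵀ F x = F}`. -/
def SPr (N : ℕ) (A : Type) [CommRing A] : Subgroup (Matrix.SpecialLinearGroup (Fin N) A) where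
  carrier := {x | (x : Matrix (Fin N) (Fin N) A).transpose * fm N A *
    (x : Matrix (Fin N) (Fin N) A) = fm N A}
  one_mem' := by simp
  mul_mem' {x y} hx hy := by
    simp only [Set.mem_ofPred_eq] at *
    exact sp_mul hx hy
  inv_mem' {x} hx := by
    simp only [Set.mem_ofPred_eq] at *
    exact sp_inv hx

/-- The group `Sp_N(A)`. -/
abbrev SP (N : ℕ) (A : Type) [CommRing A] : Type := SPr N A

/-- The underlying matrix. -/
def SP.m {N : ℕ} {A : Type} [CommRing A] (x : SP N A) : Matrix (Fin N) (Fin N) A := x.1.1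

/-- The similitudes: matrices `m` with a unit `u` such that `mᵀ F m = u F` and `det m = u^{N/2}`. -/
structure GS (N : ℕ) (A : Type) [CommRing A] : Type where
  m : Matrix (Fin N) (Fin N) A
  u : Aˣ
  hm : m.transpose * fm N A * m = (u : A) • fm N A
  hd : m.det = (u : A) ^ (N / 2)

/-- `Sp_N(A[z])` (or `Sp_N(A[z⁻¹])`). -/
abbrev SPp (N : ℕ) (A : Type) [CommRing A] : Type := SP N (Polynomial A)

/-- The similitudes over `A[z,z⁻¹]`. -/
abbrev GSl (N : ℕ) (A : Type) [CommRing A] : Type := GS N A[T;T⁻¹]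

variable {N : ℕ} {A B : Type} [CommRing A] [CommRing B]

/-- The product of similitudes. -/
def GS.mul (x y : GS N A) : GS N A := ⟨x.m * y.m, x.u * y.u, gs_mul x.hm y.hm, gs_mul_det x.hd y.hd⟩

/-- Base change of a similitude. -/
def gsf (f : A →+* B) (x : GS N A) : GS N B :=
  ⟨x.m.map f, Units.map (f : A →* B) x.u, gs_map_hm f x.hm, gs_map_det f x.hd⟩

/-- A symplectic matrix as a similitude. -/
def toGS (x : SP N A) : GS N A := ⟨x.1.1, 1, gs_of_sp x.2, gs_of_sp_det x.1.2⟩

/-- The product in `Sp_N(A)`. -/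
def SP.mul (x y : SP N A) : SP N A := x * y

/-- The map `Sp_N(A) → Sp_N(B)` defined by a ring homomorphism `A → B`. -/
def spf (f : A →+* B) (x : SP N A) : SP N B :=
  ⟨⟨x.1.1.map f, det_map_one f x.1.2⟩, fm_map_eq f x.2⟩

/-- `Sp_N(A[z]) → GSp_N(A[z,z⁻¹])` -/
def posf (x : SPp N A) : GSl N A := toGS (spf (Polynomial.toLaurent (R := A)) x)

/-- `Sp_N(A[z⁻¹]) → GSp_N(A[z,z⁻¹])`; the variable of the polynomial ring is `z⁻¹`. -/
def negf (x : SPp N A) : GSl N A :=
  toGS (spf ((invert (R := A)).toRingEquiv.toRingHom.comp (Polynomial.toLaurent (R := A))) x)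

/-- The inverse in `Sp_N(A[z])`. -/
def SPp.inv (x : SPp N A) : SPp N A := x⁻¹

/-- The unit of `Sp_N(A[z])`. -/
def SPp.one (N : ℕ) (A : Type) [CommRing A] : SPp N A := 1

/-- The indices `(l, (p, q))`, `p ≤ q`, of the basis `bas` of the symmetric matrices over
`A[z⁻¹]`. -/
abbrev Jx (N : ℕ) : Type := ℕ × {i : Fin N × Fin N // i.1 ≤ i.2}

/-- The symmetric matrix `z^{-l}` at `(p, q)` and `(q, p)`. -/
def bas (N : ℕ) (A : Type) [CommRing A] (i : Jx N) : Matrix (Fin N) (Fin N) A[T;T⁻¹] :=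
  Matrix.of fun p q => if min p q = i.2.1.1 ∧ max p q = i.2.1.2 then T (-(i.1 : ℤ)) else 0

/-- The isomorphism of free modules of `Jx N →₀ A` onto the symmetric matrices over `A[z⁻¹]`,
followed by the inclusion into `M_N(A[z,z⁻¹])`. -/
def toSym (N : ℕ) (A : Type) [CommRing A] :
    (Jx N →₀ A) →ₗ[A] Matrix (Fin N) (Fin N) A[T;T⁻¹] :=
  Finsupp.linearCombination A (bas N A)

/-- The inclusion of index sets. -/
def emb (N : ℕ) (i : Jx N) : Ix N := (i.1, i.2.1)

theorem emb_injective (N : ℕ) : Function.Injective (emb N) := by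
  rintro ⟨l, p⟩ ⟨l', p'⟩ h
  simp only [emb, Prod.mk.injEq] at h
  exact Prod.ext h.1 (Subtype.ext h.2)

/-- The coordinates of the part of nonpositive degree of a symmetric Laurent matrix. -/
def apart (N : ℕ) (A : Type) [CommRing A] :
    Matrix (Fin N) (Fin N) A[T;T⁻¹] →ₗ[A] (Jx N →₀ A) :=
  (Finsupp.lcomapDomain (emb N) (emb_injective N)).comp (npart N A)

/-- The Toeplitz operator `X ↦ (u g X gᵀ)_{≤ 0}` on the symmetric matrices over `A[z⁻¹]`. -/
def sytoep (u : A[T;T⁻¹]) (g : Matrix (Fin N) (Fin N) A[T;T⁻¹]) : Module.End A (Jx N →₀ A) :=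
  (apart N A).comp ((LinearMap.mulLeft A (u • g)).comp
    ((LinearMap.mulRight A g.transpose).comp (toSym N A)))

/-- The Toeplitz operator `X ↦ (u⁻¹ g X gᵀ)_{≤ 0}` on the symmetric matrices over `A[z⁻¹]`.  Its
kernel and cokernel are `H⁰` and `H¹` of `𝔤_E(-1)` on `ℙ¹_A`, where `E` is the bundle with
transition matrix `g`. -/
def toep (g : GSl N A) : Module.End A (Jx N →₀ A) := sytoep ((g.u⁻¹ : A[T;T⁻¹]ˣ) : A[T;T⁻¹]) g.m

/-- operators on the symmetric matrices over `A[z⁻¹]` -/
abbrev Opr (N : ℕ) (A : Type) [CommRing A] : Type := Module.End A (Jx N →₀ A)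

/-- invertible operators -/
abbrev OprU (N : ℕ) (A : Type) [CommRing A] : Type := (Opr N A)ˣ

/-- `S` is a framing of the determinant line of the Toeplitz operator of `g`. -/
def IsFraming (g : GSl N A) (S : OprU N A) : Prop := FinRank ((S : Opr N A) - toep g)

/-- The pair `(a, b)` is an isomorphism from the bundle `f(g)` to the bundle `g'`. -/
def Glue (f : A →+* B) (g : GSl N A) (g' : GSl N B) (a b : SPp N B) : Prop :=
  GS.mul g' (negf b) = GS.mul (posf a) (gsf (lmap f) g)

/-- The composition. -/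
def cmp (f : A →+* B) (x : SPp N B) (y : SPp N A) : SPp N B :=
  SP.mul x (spf (Polynomial.mapRingHom f) y)

/-- The product `p s q u⁻¹`. -/
def mul₄ {E : Type} [Monoid E] (p s q : E) (u : Eˣ) : E := p * s * q * ((u⁻¹ : Eˣ) : E)

/-- The element `δ` with `t_{S'} = δ • (a, b)_* f_* t_S`. -/
def delta (f : A →+* B) (a b : SPp N B) (S : OprU N A) (S' : OprU N B) : B :=
  fdet (mul₄ (toep (posf a)) (bc f (S : Opr N A)) (toep (negf (SPp.inv b))) S')

/-- Test objects of `Bun_{Sp_N/μ_d}(ℙ¹)` with a generator of `ω`. -/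
structure BunObj (N d : ℕ) : Type 1 where
  A : SmAlg
  /-- the transition matrix -/
  g : GSl N A.R
  /-- the multiplier is `z^k` -/
  mult : ∃ k : ℕ, k < d ∧ (g.u : (A.R)[T;T⁻¹]) = T (k : ℤ)
  /-- the framing of the determinant line of `RΓ(𝔤_E(-1))` -/
  S : OprU N A.R
  framing : IsFraming g S

/-- Morphisms of test objects of `Bun_{Sp_N/μ_d}(ℙ¹)`. -/
structure BunHom {N d : ℕ} (X Y : BunObj N d) : Type where
  f : X.A.Hm Y.A
  a : SPp N Y.A.R
  b : SPp N Y.A.R
  glue : Glue f.r X.g Y.g a b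

/-- `x` is the scalar matrix `ζ`. -/
def IsScal {A : Type} [CommRing A] [Algebra ℂ A] (ζ : ℂ) (x : SP N A) : Prop :=
  x.1.1 = Matrix.scalar (Fin N) (algebraMap ℂ A ζ)

/-- Test objects of `BSp_N`: the trivial `Sp_N`-torsor over a smooth algebra. -/
structure BGObj (N : ℕ) : Type 1 where
  A : SmAlg

/-- The composition. -/
def gcmp (f : A →+* B) (x : SP N B) (y : SP N A) : SP N B := SP.mul x (spf f y)

/-- Morphisms of test objects of `BSp_N`. -/
@[ext]
structure BGHom {N : ℕ} (X Y : BGObj N) : Type where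
  f : X.A.Hm Y.A
  h : SP N Y.A.R

end

end Vale.Agent.P286.Sp
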