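import Vale.Agent.P286.Sp.Sym
import Vale.Agent.P286.So.Torus

/-! The action of a torus on the determinant of cohomology of the symmetric square of a split
bundle. -/

namespace Vale.Agent.P286.Sp

open LaurentPolynomial Matrix

noncomputable section

section Torus

variable {N : ℕ}

/-- the pairs `p ≤ q` -/
abbrev Pr (N : ℕ) : Type := {i : Fin N × Fin N // i.1 ≤ i.2}

/-- the weights of `z^λ` on `S²(-k)` -/
def wt (k : ℤ) (lam : Fin N → ℤ) (p : Pr N) : ℤ := lam p.1.1 + lam p.1.2 - k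

/-- the signs of `2λ - k` -/
def sg (k : ℤ) (lam : Fin N → ℤ) (i : Fin N) : ℤ := Int.sign (2 * lam i - k)

theorem sum_pairs (k : ℤ) (lam : Fin N → ℤ) (h : 2 * ∑ i, lam i = N * k) :
    ∑ p : Pr N, wt k lam p = 0 := by
  classical
  have h1 : ∑ p : Pr N, wt k lam p =
      ∑ p ∈ Finset.univ.filter (fun i : Fin N × Fin N => i.1 ≤ i.2), (lam p.1 + lam p.2 - k) := by
    rw [Finset.sum_subtype (Finset.univ.filter (fun i : Fin N × Fin N => i.1 ≤ i.2))
      (p := fun i => i.1 ≤ i.2) (by intro x; simp)]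
    rfl
  have h2 : ∑ p ∈ Finset.univ.filter (fun i : Fin N × Fin N => i.1 ≤ i.2), (lam p.1 + lam p.2 - k) =
      ∑ p ∈ Finset.univ.filter (fun i : Fin N × Fin N => i.1 < i.2), (lam p.1 + lam p.2 - k) +
      ∑ p ∈ Finset.univ.filter (fun i : Fin N × Fin N => i.1 = i.2), (lam p.1 + lam p.2 - k) := by
    rw [← Finset.sum_filter_add_sum_filter_not (Finset.univ.filter
      (fun i : Fin N × Fin N => i.1 ≤ i.2)) (fun i : Fin N × Fin N => i.1 < i.2)]
    rw [Finset.filter_filter, Finset.filter_filter]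
    congr 1
    · refine Finset.sum_congr (Finset.filter_congr fun x _ => ?_) fun _ _ => rfl
      constructor
      · rintro ⟨-, h⟩; exact h
      · intro h; exact ⟨h.le, h⟩
    · refine Finset.sum_congr (Finset.filter_congr fun x _ => ?_) fun _ _ => rfl
      constructor
      · rintro ⟨h1, h2⟩; exact le_antisymm h1 (not_lt.1 h2)
      · intro h; exact ⟨h.le, by rw [h]; exact lt_irrefl _⟩
  have h3 : ∑ p ∈ Finset.univ.filter (fun i : Fin N × Fin N => i.1 = i.2), (lam p.1 + lam p.2 - k) =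
      0 := by
    have : ∑ p ∈ Finset.univ.filter (fun i : Fin N × Fin N => i.1 = i.2),
        (lam p.1 + lam p.2 - k) = ∑ i : Fin N, (lam i + lam i - k) := by
      symm
      refine Finset.sum_bij (fun i _ => (i, i)) ?_ ?_ ?_ ?_
      · intro i _; simp
      · intro i _ j _ hij; simpa using hij
      · rintro ⟨i, j⟩ hij
        simp only [Finset.mem_filter, Finset.mem_univ, true_and] at hij
        subst hij
        exact ⟨i, Finset.mem_univ _, rfl⟩
      · intro i _; rfl
    rw [this, Finset.sum_sub_distrib, Finset.sum_add_distrib, Finset.sum_const, Finset.card_univ,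
      Fintype.card_fin, nsmul_eq_mul]
    linarith
  have h4 : ∑ i, (2 * lam i - k) = 0 := by
    rw [Finset.sum_sub_distrib, ← Finset.mul_sum, Finset.sum_const, Finset.card_univ,
      Fintype.card_fin, nsmul_eq_mul]
    linarith
  have h5 := So.sum_pairs (fun i => 2 * lam i - k) h4
  have h6 : ∑ p : So.Pr N, ((2 * lam p.1.1 - k) + (2 * lam p.1.2 - k)) =
      ∑ p ∈ Finset.univ.filter (fun i : Fin N × Fin N => i.1 < i.2),
        ((2 * lam p.1 - k) + (2 * lam p.2 - k)) := by
    rw [Finset.sum_subtype (Finset.univ.filter (fun i : Fin N × Fin N => i.1 < i.2))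
      (p := fun i => i.1 < i.2) (by intro x; simp)]
  have h7 : ∑ p ∈ Finset.univ.filter (fun i : Fin N × Fin N => i.1 < i.2),
        ((2 * lam p.1 - k) + (2 * lam p.2 - k)) =
      2 * ∑ p ∈ Finset.univ.filter (fun i : Fin N × Fin N => i.1 < i.2),
        (lam p.1 + lam p.2 - k) := by
    rw [Finset.mul_sum]
    refine Finset.sum_congr rfl fun p _ => ?_
    ring
  rw [h1, h2, h3, add_zero]
  have h8 : (2 : ℤ) * ∑ p ∈ Finset.univ.filter (fun i : Fin N × Fin N => i.1 < i.2),
        (lam p.1 + lam p.2 - k) = 0 := by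
    rw [← h7, ← h6]
    exact h5
  omega

theorem toNat_sum (k : ℤ) (lam : Fin N → ℤ) (h : 2 * ∑ i, lam i = N * k) :
    ∑ p : Pr N, (wt k lam p).toNat = ∑ p : Pr N, (-wt k lam p).toNat := by
  have h1 := sum_pairs k lam h
  have h2 : ∀ p : Pr N, ((wt k lam p).toNat : ℤ) - ((-wt k lam p).toNat : ℤ) = wt k lam p := by
    intro p
    omega
  have h3 : ∑ p : Pr N, (((wt k lam p).toNat : ℤ) - ((-wt k lam p).toNat : ℤ)) = 0 := by
    rw [← h1]
    exact Finset.sum_congr rfl fun p _ => h2 p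
  rw [Finset.sum_sub_distrib, sub_eq_zero] at h3
  exact_mod_cast h3

theorem bas_apply (A : Type) [CommRing A] (l : ℕ) (p q : Fin N) (hpq : p ≤ q) (p' q' : Fin N)
    (h : p' ≤ q') : bas N A (l, ⟨(p, q), hpq⟩) p' q' =
      if p' = p ∧ q' = q then T (-(l : ℤ)) else 0 := by
  show (if min p' q' = p ∧ max p' q' = q then T (-(l : ℤ)) else 0) = _
  rw [min_eq_left h, max_eq_right h]

theorem sytoep_mono_single (A : Type) [CommRing A] (k : ℤ) (lam : Fin N → ℤ) (i : Jx N) :
    sytoep (T (-k)) (mono lam : Matrix (Fin N) (Fin N) A[T;T⁻¹]) (Finsupp.single i 1) =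
      if i.1 < (wt k lam i.2).toNat then 0 else
        Finsupp.single (((i.1 : ℤ) - wt k lam i.2).toNat, i.2) 1 := by
  obtain ⟨l, ⟨⟨p, q⟩, hpq⟩⟩ := i
  simp only at hpq
  rw [sytoep_apply, toSym_single]
  ext ⟨l', ⟨⟨p', q'⟩, hpq'⟩⟩
  simp only at hpq'
  rw [apart_apply]
  simp only
  rw [Matrix.smul_apply, smul_eq_mul, mono, Matrix.diagonal_transpose, Matrix.diagonal_mul,
    Matrix.mul_diagonal, bas_apply A l p q hpq p' q' hpq']
  unfold wt
  simp only
  by_cases hpq2 : p' = p ∧ q' = q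
  · obtain ⟨rfl, rfl⟩ := hpq2
    rw [if_pos ⟨rfl, rfl⟩]
    have e1 : (T (-k) : A[T;T⁻¹]) * (T (lam p') * (T (-(l : ℤ)) * T (lam q'))) =
        T (lam p' + lam q' - k - l) := by
      rw [← T_add, ← T_add, ← T_add]
      congr 1
      ring
    rw [e1, T_apply]
    by_cases hl : l < (lam p' + lam q' - k).toNat
    · rw [if_pos hl, Finsupp.zero_apply, if_neg (by omega)]
    · rw [if_neg hl, Finsupp.single_apply]
      simp only [Prod.mk.injEq, and_true]
      congr 1
      simp only [eq_iff_iff]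
      constructor <;> intro h <;> omega
  · rw [if_neg hpq2, zero_mul, mul_zero, mul_zero, AddMonoidAlgebra.coeff_zero, Finsupp.zero_apply]
    split_ifs with hl
    · rfl
    · rw [Finsupp.single_apply, if_neg]
      simp only [Prod.mk.injEq, Subtype.mk.injEq]
      exact fun h => hpq2 ⟨h.2.1.symm, h.2.2.symm⟩

theorem finRank_perm_sub (A : Type) [CommRing A] (k : ℤ) (lam : Fin N → ℤ)
    (e : {i : ℕ × Pr N // i.1 < (wt k lam i.2).toNat} ≃ {i : ℕ × Pr N // i.1 < (-wt k lam i.2).toNat}) :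
    FinRank (permOp A (So.sig (wt k lam) e) - sytoep (T (-k)) (mono lam)) := by
  classical
  obtain ⟨K, hK⟩ : ∃ K : ℕ, ∀ p : Pr N, (-wt k lam p).toNat ≤ K :=
    ⟨Finset.univ.sup fun p : Pr N => (-wt k lam p).toNat, fun p =>
      Finset.le_sup (f := fun p : Pr N => (-wt k lam p).toNat) (Finset.mem_univ p)⟩
  refine ⟨Finset.range K ×ˢ Finset.univ, fun x i hi => ?_⟩
  have hi' : K ≤ i.1 := by
    by_contra h
    exact hi (by simp; omega)
  induction x using Finsupp.induction_linear with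
  | zero => simp
  | add x y hx hy => rw [map_add, Finsupp.add_apply, hx, hy, add_zero]
  | single j a =>
    have h2 : (Finsupp.single j a : Jx N →₀ A) = a • Finsupp.single j 1 := by simp
    rw [h2, map_smul, Finsupp.smul_apply, LinearMap.sub_apply, permOp_single, sytoep_mono_single]
    have : ((Finsupp.single (So.sig (wt k lam) e j) 1 : Jx N →₀ A) -
        (if j.1 < (wt k lam j.2).toNat then 0 else
        Finsupp.single (((j.1 : ℤ) - wt k lam j.2).toNat, j.2) 1 : Jx N →₀ A)) i = 0 := by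
      by_cases h : j.1 < (wt k lam j.2).toNat
      · rw [if_pos h, sub_zero, Finsupp.single_apply, if_neg]
        intro heq
        have h1 := So.sig_of_mem (wt k lam) e j h
        rw [heq] at h1
        have := hK i.2
        omega
      · rw [if_neg h, So.sig_of_not _ _ _ h, sub_self, Finsupp.zero_apply]
    rw [this, smul_zero]

/-- the one-parameter group `t ^ mu` -/
def tau (A : Type) [CommRing A] (mu : Fin N → ℤ) : Matrix (Fin N) (Fin N) A[T;T⁻¹][T;T⁻¹] :=
  Matrix.diagonal fun i => LaurentPolynomial.C (T (mu i))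

theorem sytoep_tau (A : Type) [CommRing A] (mu : Fin N → ℤ) :
    sytoep 1 (tau A mu) = diagOp fun i : Jx N => (T (wt 0 mu i.2) : A[T;T⁻¹]) := by
  refine end_ext_single fun i => ?_
  obtain ⟨l, ⟨⟨p, q⟩, hpq⟩⟩ := i
  simp only at hpq
  rw [diagOp_single, sytoep_apply, toSym_single, one_smul]
  ext ⟨l', ⟨⟨p', q'⟩, hpq'⟩⟩ : 1
  simp only at hpq'
  rw [apart_apply]
  simp only
  rw [tau, Matrix.diagonal_transpose, Matrix.diagonal_mul,
    Matrix.mul_diagonal, bas_apply A[T;T⁻¹] l p q hpq p' q' hpq', Finsupp.single_apply]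
  unfold wt
  simp only [sub_zero]
  by_cases hpq2 : p' = p ∧ q' = q
  · obtain ⟨rfl, rfl⟩ := hpq2
    rw [if_pos ⟨rfl, rfl⟩]
    have e1 : (LaurentPolynomial.C (T (mu p')) : A[T;T⁻¹][T;T⁻¹]) * (T (-(l : ℤ)) *
        LaurentPolynomial.C (T (mu q'))) = LaurentPolynomial.C (T (mu p' + mu q')) *
          T (-(l : ℤ)) := by
      rw [T_add, map_mul]
      ring
    rw [e1, ← single_eq_C_mul_T, AddMonoidAlgebra.coeff_single, Finsupp.single_apply]
    simp only [Prod.mk.injEq, and_true]
    congr 1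
    simp only [eq_iff_iff]
    constructor <;> intro h <;> omega
  · rw [if_neg hpq2, zero_mul, mul_zero, AddMonoidAlgebra.coeff_zero, Finsupp.zero_apply, if_neg]
    simp only [Prod.mk.injEq, Subtype.mk.injEq]
    exact fun h => hpq2 ⟨h.2.1.symm, h.2.2.symm⟩

theorem exists_pair (k : ℤ) (lam : Fin N → ℤ) (h0 : ∃ i, 2 * lam i - k ≠ 0) :
    ∃ p : Pr N, 0 < wt k lam p * wt 0 (sg k lam) p := by
  obtain ⟨i, hi⟩ := h0
  refine ⟨⟨(i, i), le_refl i⟩, ?_⟩
  unfold wt sg
  simp only [sub_zero]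
  rcases lt_trichotomy (2 * lam i - k) 0 with h | h | h
  · rw [Int.sign_eq_neg_one_of_neg h]
    nlinarith
  · exact absurd h hi
  · rw [Int.sign_eq_one_of_pos h]
    nlinarith

theorem wt_sign_nonneg (k : ℤ) (lam : Fin N → ℤ) (p : Pr N) (h : 0 < wt k lam p) :
    0 ≤ wt 0 (sg k lam) p := by
  have h0 : 0 < lam p.1.1 + lam p.1.2 - k := h
  have h1 := So.sign_sum_nonneg (2 * lam p.1.1 - k) (2 * lam p.1.2 - k) (by omega)
  show 0 ≤ Int.sign (2 * lam p.1.1 - k) + Int.sign (2 * lam p.1.2 - k) - 0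
  omega

theorem wt_sign_nonpos (k : ℤ) (lam : Fin N → ℤ) (p : Pr N) (h : wt k lam p < 0) :
    wt 0 (sg k lam) p ≤ 0 := by
  have h0 : lam p.1.1 + lam p.1.2 - k < 0 := h
  have h1 := So.sign_sum_nonneg (-(2 * lam p.1.1 - k)) (-(2 * lam p.1.2 - k)) (by omega)
  rw [Int.sign_neg, Int.sign_neg] at h1
  show Int.sign (2 * lam p.1.1 - k) + Int.sign (2 * lam p.1.2 - k) - 0 ≤ 0
  omega

/-- **The weight of the torus on the determinant of cohomology** of the symmetric
square of a nontrivial split bundle is not zero. -/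
theorem torus_weight (k : ℤ) (lam : Fin N → ℤ) (h0 : ∃ i, 2 * lam i - k ≠ 0)
    (hs : 2 * ∑ i, lam i = N * k) :
    ∃ m : ℤ, m ≠ 0 ∧
      ∀ (A : Type) [CommRing A] (S : (Module.End A (Jx N →₀ A))ˣ),
        FinRank ((S : Module.End A (Jx N →₀ A)) - sytoep (T (-k)) (mono lam)) →
        fdet (sytoep 1 (tau A (sg k lam)) *
          bc (LaurentPolynomial.C) (S : Module.End A (Jx N →₀ A)) *
          sytoep 1 (tau A (-sg k lam)) *
          (((Units.map (bcHom (Jx N) (LaurentPolynomial.C : A →+* A[T;T⁻¹])) S)⁻¹ :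
            (Module.End A[T;T⁻¹] (Jx N →₀ A[T;T⁻¹]))ˣ) :
              Module.End A[T;T⁻¹] (Jx N →₀ A[T;T⁻¹]))) = T m := by
  classical
  obtain ⟨e⟩ := So.exists_kc (fun p : Pr N => (wt k lam p).toNat) (fun p : Pr N => (-wt k lam p).toNat)
    (toNat_sum k lam hs)
  let mu : Fin N → ℤ := sg k lam
  let nu : Jx N → ℤ := fun i => wt 0 mu i.2
  obtain ⟨K, hK⟩ : ∃ K : ℕ, ∀ p : Pr N, (-wt k lam p).toNat ≤ K :=
    ⟨Finset.univ.sup fun p : Pr N => (-wt k lam p).toNat, fun p =>
      Finset.le_sup (f := fun p : Pr N => (-wt k lam p).toNat) (Finset.mem_univ p)⟩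
  let F : Finset (Jx N) := Finset.range K ×ˢ Finset.univ
  have hmemF : ∀ j : Jx N, j.1 < (-wt k lam j.2).toNat → j ∈ F := by
    intro j hj
    have := hK j.2
    simp only [F, Finset.mem_product, Finset.mem_range, Finset.mem_univ, and_true]
    omega
  have h1 : ∀ j : Jx N, ¬ j.1 < (-wt k lam j.2).toNat → nu j - nu ((So.sig (wt k lam) e)⁻¹ j) = 0 := by
    intro j hj
    simp only [nu, So.sig_inv_of_not (wt k lam) e j hj, sub_self]
  have h2 : ∀ j : Jx N, j.1 < (-wt k lam j.2).toNat → nu j ≤ 0 ∧ 0 ≤ nu ((So.sig (wt k lam) e)⁻¹ j) := by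
    intro j hj
    have h3 := So.sig_inv_of_mem (wt k lam) e j hj
    exact ⟨wt_sign_nonpos k lam _ (by omega), wt_sign_nonneg k lam _ (by omega)⟩
  have hle : ∀ j, nu j - nu ((So.sig (wt k lam) e)⁻¹ j) ≤ 0 := by
    intro j
    by_cases hj : j.1 < (-wt k lam j.2).toNat
    · have := h2 j hj; omega
    · rw [h1 j hj]
  have hF0 : ∀ j, j ∉ F → nu j - nu ((So.sig (wt k lam) e)⁻¹ j) = 0 := by
    intro j hj
    exact h1 j fun h => hj (hmemF j h)
  refine ⟨∑ j ∈ F, (nu j - nu ((So.sig (wt k lam) e)⁻¹ j)), ?_, ?_⟩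
  · obtain ⟨p, hp⟩ := exists_pair k lam h0
    have hex : ∃ j ∈ F, nu j - nu ((So.sig (wt k lam) e)⁻¹ j) < 0 := by
      rcases lt_trichotomy (wt k lam p) 0 with h | h | h
      · have h3 : wt 0 mu p < 0 := by
          by_contra hcon
          rw [not_lt] at hcon
          have h7 : wt k lam p * wt 0 mu p ≤ 0 := mul_nonpos_of_nonpos_of_nonneg h.le hcon
          have h8 : 0 < wt k lam p * wt 0 mu p := hp
          omega
        have hj : ((0, p) : Jx N).1 < (-wt k lam ((0, p) : Jx N).2).toNat := by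
          simp only
          omega
        refine ⟨(0, p), hmemF _ hj, ?_⟩
        have h4 := (h2 _ hj).2
        have h5 : nu (0, p) < 0 := h3
        omega
      · rw [h, zero_mul] at hp
        exact absurd hp (lt_irrefl _)
      · have h3 : 0 < wt 0 mu p := by
          by_contra hcon
          rw [not_lt] at hcon
          have h7 : wt k lam p * wt 0 mu p ≤ 0 := mul_nonpos_of_nonneg_of_nonpos h.le hcon
          have h8 : 0 < wt k lam p * wt 0 mu p := hp
          omega
        have hk : ((0, p) : Jx N).1 < (wt k lam ((0, p) : Jx N).2).toNat := by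
          simp only
          omega
        have hj := So.sig_of_mem (wt k lam) e (0, p) hk
        refine ⟨So.sig (wt k lam) e (0, p), hmemF _ hj, ?_⟩
        have h4 := (h2 _ hj).1
        have h5 : (So.sig (wt k lam) e)⁻¹ (So.sig (wt k lam) e (0, p)) = (0, p) :=
          (So.sig (wt k lam) e).symm_apply_apply (0, p)
        rw [h5]
        have h6 : 0 < nu (0, p) := h3
        omega
    have hlt : ∑ j ∈ F, (nu j - nu ((So.sig (wt k lam) e)⁻¹ j)) < ∑ j ∈ F, (0 : ℤ) :=
      Finset.sum_lt_sum (fun j _ => hle j) hex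
    rw [Finset.sum_const_zero] at hlt
    exact ne_of_lt hlt
  · intro A _ S hS
    have h3 : FinRank ((S : Module.End A (Jx N →₀ A)) - permOp A (So.sig (wt k lam) e)) := by
      have h5 : ((S : Module.End A (Jx N →₀ A)) - permOp A (So.sig (wt k lam) e)) =
          ((S : Module.End A (Jx N →₀ A)) - sytoep (T (-k)) (mono lam)) -
            (permOp A (So.sig (wt k lam) e) - sytoep (T (-k)) (mono lam)) := by
        refine LinearMap.ext fun x => ?_
        simp only [LinearMap.sub_apply]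
        abel
      rw [h5]
      exact hS.sub (finRank_perm_sub A k lam e)
    have h4 := So.comm_weight (So.sig (wt k lam) e) nu F hF0 S h3
    rw [sytoep_tau, sytoep_tau]
    have h6 : (fun i : Jx N => (T (wt 0 (-sg k lam) i.2) : A[T;T⁻¹])) =
        fun i => T (-nu i) := by
      funext i
      congr 1
      simp only [nu, mu, wt, Pi.neg_apply]
      ring
    rw [h6]
    exact h4

end Torus

end

end Vale.Agent.P286.Sp
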