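import Vale.Agent.P286.Sp.Fact
import Vale.Agent.P286.Sp.Torus
import Vale.Agent.P286.So.Gs

/-! Orthogonal splitting of a symplectic bundle which is split as a vector bundle. -/

namespace Vale.Agent.P286.Sp

open LaurentPolynomial Matrix

noncomputable section

variable {N : ℕ} {B : Type} [CommRing B]

theorem gs_alg1 {R E : Type} [CommRing R] [Ring E] [Algebra R E] {t t' : R} (ht : t * t' = 1)
    {D Di M W M' W' : E} (hD : D * Di = 1) (hMM : t • M' = D * M * D) (hMW : M * W = 1)
    (hWM' : W' * M' = 1) : W = t' • (D * W' * D) := by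
  have h1 : (t' • (D * W' * D)) * M = 1 := by
    have h2 : D * W' * D * M = D * (W' * (D * M * D)) * Di := by
      calc D * W' * D * M = D * W' * D * M * (D * Di) := by rw [hD, mul_one]
        _ = _ := by simp only [mul_assoc]
    rw [smul_mul_assoc, h2, ← hMM, mul_smul_comm, hWM', mul_smul_comm, mul_one, smul_mul_assoc, hD,
      smul_smul, mul_comm t', ht, one_smul]
  calc W = ((t' • (D * W' * D)) * M) * W := by rw [h1, one_mul]
    _ = (t' • (D * W' * D)) * (M * W) := by rw [mul_assoc]
    _ = _ := by rw [hMW, mul_one]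

theorem gs_alg2 {R E : Type} [CommRing R] [Ring E] [Algebra R E] {t' : R}
    {D P Q d M W M' W' : E} (hP : P * D = D * P) (hQ : Q * D = D * Q) (hd : d * D = D * d)
    (hW : W = t' • (D * W' * D)) (hM : M' = t' • (D * M * D)) :
    P * W * Q * M * d * D = D * (P * W' * Q * M' * d) := by
  rw [hW, hM]
  simp only [mul_smul_comm, smul_mul_assoc]
  congr 1
  calc P * (D * W' * D) * Q * M * d * D = (P * D) * W' * (D * Q) * M * (d * D) := by
        simp only [mul_assoc]
    _ = (D * P) * W' * (Q * D) * M * (D * d) := by rw [hP, hQ, hd]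
    _ = _ := by simp only [mul_assoc]

theorem form_mul_inv (hN : Even N) {X : Matrix (Fin N) (Fin N) B} (hX1 : X.det = 1) :
    (X.transpose * fm N B * X) * (-(X.adjugate * fm N B * X.adjugate.transpose)) = 1 := by
  have hXa : X.adjugate * X = 1 := by rw [Matrix.adjugate_mul, hX1, one_smul]
  have hXa' : X * X.adjugate = 1 := by rw [Matrix.mul_adjugate, hX1, one_smul]
  have hJJ : fm N B * fm N B = -1 := fm_sq hN
  calc (X.transpose * fm N B * X) * (-(X.adjugate * fm N B * X.adjugate.transpose)) =
        -(X.transpose * fm N B * (X * X.adjugate) * fm N B * X.adjugate.transpose) := by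
        rw [Matrix.mul_neg]; simp only [Matrix.mul_assoc]
    _ = -(X.transpose * (fm N B * fm N B) * X.adjugate.transpose) := by
        rw [hXa', Matrix.mul_one]; simp only [Matrix.mul_assoc]
    _ = (X.adjugate * X).transpose := by
        rw [hJJ, Matrix.mul_neg, Matrix.mul_one, Matrix.neg_mul, neg_neg, Matrix.transpose_mul]
    _ = 1 := by rw [hXa, Matrix.transpose_one]

theorem form_pull {g X Y D : Matrix (Fin N) (Fin N) B} {t : B}
    (hg : g.transpose * fm N B * g = t • fm N B) (hD : D.transpose = D) (h : g * Y = X * D) :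
    t • (Y.transpose * fm N B * Y) = D * (X.transpose * fm N B * X) * D := by
  calc t • (Y.transpose * fm N B * Y) = Y.transpose * (g.transpose * fm N B * g) * Y := by
        rw [hg, Matrix.mul_smul, Matrix.smul_mul]
    _ = (g * Y).transpose * fm N B * (g * Y) := by
        rw [Matrix.transpose_mul]; simp only [Matrix.mul_assoc]
    _ = _ := by
        rw [h, Matrix.transpose_mul, hD]; simp only [Matrix.mul_assoc]

theorem form_tr (hN : Even N) (X : Matrix (Fin N) (Fin N) B) :
    (X.transpose * fm N B * X).transpose = -(X.transpose * fm N B * X) := by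
  rw [Matrix.transpose_mul, Matrix.transpose_mul, Matrix.transpose_transpose, fm_tr hN,
    Matrix.neg_mul, Matrix.mul_neg, Matrix.mul_assoc]

theorem form_tr' (hN : Even N) (X : Matrix (Fin N) (Fin N) B) :
    (-(X * fm N B * X.transpose)).transpose = -(-(X * fm N B * X.transpose)) := by
  rw [Matrix.transpose_neg, Matrix.transpose_mul, Matrix.transpose_mul,
    Matrix.transpose_transpose, fm_tr hN, Matrix.neg_mul, Matrix.mul_neg, Matrix.mul_assoc]

theorem v_tr {D Q P M W : Matrix (Fin N) (Fin N) B} (hD : D.transpose = D)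
    (hQ : Q.transpose = Q) (hP : P.transpose = P) (hM : M.transpose = -M) (hW : W.transpose = -W) :
    (1 - P * W * Q * M * D).transpose = 1 - D * M * Q * W * P := by
  rw [Matrix.transpose_sub, Matrix.transpose_one]
  simp only [Matrix.transpose_mul, hD, hQ, hP, hM, hW, Matrix.mul_assoc, Matrix.neg_mul,
    Matrix.mul_neg, neg_neg]

set_option maxHeartbeats 800000 in
/-- A bundle with a symplectic form which is split as a vector bundle is the orthogonal sum of its
parts of positive and negative slopes and of its part of slope zero. -/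
theorem gram_schmidt (hN : Even N) (half : B) (hh : half + half = 1) (k : ℤ) (l : Fin N → ℤ)
    (X Y : Matrix (Fin N) (Fin N) B[T;T⁻¹]) (g : GS N B[T;T⁻¹])
    (hgu : (g.u : B[T;T⁻¹]) = T k) (hX : MGE 0 X) (hX1 : X.det = 1)
    (hY : MLE 0 Y) (hY1 : Y.det = 1) (hg : g.m * Y = X * mono l) :
    ∃ X' Y' : Matrix (Fin N) (Fin N) B[T;T⁻¹], MGE 0 X' ∧ X'.det = 1 ∧ MLE 0 Y' ∧ Y'.det = 1 ∧
      g.m * Y' = X' * mono l ∧
      ∀ i j, sg k l i + sg k l j ≠ 0 → (X'.transpose * fm N B[T;T⁻¹] * X') i j = 0 := by
  have hXa := adjugate_mul_self hX1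
  have hXa' := self_mul_adjugate hX1
  have hYa := adjugate_mul_self hY1
  have hYa' := self_mul_adjugate hY1
  set J := fm N B[T;T⁻¹] with hJ
  have hJJ : J * J = -1 := fm_sq hN
  have hJt : J.transpose = -J := fm_tr hN
  set M := X.transpose * J * X with hM
  set M' := Y.transpose * J * Y with hM'
  set W := -(X.adjugate * J * X.adjugate.transpose) with hW
  set W' := -(Y.adjugate * J * Y.adjugate.transpose) with hW'
  have hTT : (T k : B[T;T⁻¹]) * T (-k) = 1 := by rw [← T_add, add_neg_cancel, T_zero]
  have hMM0 : (T k : B[T;T⁻¹]) • M' = mono l * M * mono l :=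
    form_pull (by rw [g.hm, hgu]) (So.mono_tr l) hg
  have hMM : M' = (T (-k) : B[T;T⁻¹]) • (mono l * M * mono l) := by
    rw [← hMM0, smul_smul, mul_comm, hTT, one_smul]
  have hMW : M * W = 1 := form_mul_inv hN hX1
  have hWM : W * M = 1 := mul_eq_one_comm.1 hMW
  have hMW' : M' * W' = 1 := form_mul_inv hN hY1
  have hWM' : W' * M' = 1 := mul_eq_one_comm.1 hMW'
  have hm1 : (mono l : Matrix (Fin N) (Fin N) B[T;T⁻¹]) * mono (-l) = 1 := mono_mul_neg l
  have hm2 : (mono (-l) : Matrix (Fin N) (Fin N) B[T;T⁻¹]) * mono l = 1 := mono_neg_mul l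
  have hWW : W = (T (-k) : B[T;T⁻¹]) • (mono l * W' * mono l) :=
    gs_alg1 hTT hm1 hMM0 hMW hWM'
  have hMG : MGE 0 M := by
    have := ((MGE.tr hX).mul MGE.fm).mul hX
    simpa using this
  have hWG : MGE 0 W := by
    have := (hX.adjugate.mul MGE.fm).mul (MGE.tr hX.adjugate)
    have h2 : MGE 0 (X.adjugate * J * X.adjugate.transpose) := by simpa using this
    exact fun i j => (h2 i j).neg
  have hML' : MLE 0 M' := by
    have := ((MLE.tr hY).mul MLE.fm).mul hY
    simpa using this
  have hWL' : MLE 0 W' := by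
    have := (hY.adjugate.mul MLE.fm).mul (MLE.tr hY.adjugate)
    have h2 : MLE 0 (Y.adjugate * J * Y.adjugate.transpose) := by simpa using this
    exact fun i j => (h2 i j).neg
  let c : Fin N → ℤ := fun i => 2 * l i - k
  have hc : ∀ i, c i = 2 * l i - k := fun _ => rfl
  have hsg : ∀ i, sg k l i = Int.sign (c i) := fun _ => rfl
  -- vanishing of the entries
  have hM0 : ∀ i j, 0 < c i + c j → M i j = 0 := by
    intro i j hij
    rw [hc, hc] at hij
    have h1 : M' i j = T (-k) * (T (l i) * M i j * T (l j)) := by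
      rw [hMM, Matrix.smul_apply, smul_eq_mul, mono, Matrix.mul_diagonal, Matrix.diagonal_mul]
    have h2 : M i j = T k * (T (-l i) * M' i j * T (-l j)) := by
      rw [h1]
      calc M i j = (T k * T (-k)) * ((T (-l i) * T (l i)) * M i j * (T (l j) * T (-l j))) := by
            rw [hTT, ← T_add, ← T_add]; simp [T_zero]
        _ = _ := by ring
    have h3 : LE (k + (-l i + 0 + -l j)) (M i j) := by
      rw [h2]
      exact (LE.T _).mul (((LE.T _).mul (hML' i j)).mul (LE.T _))
    exact eq_zero_of_LE_GE h3 (hMG i j) (by omega)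
  have hW0 : ∀ i j, c i + c j < 0 → W i j = 0 := by
    intro i j hij
    rw [hc, hc] at hij
    have h1 : W i j = T (-k) * (T (l i) * W' i j * T (l j)) := by
      rw [hWW, Matrix.smul_apply, smul_eq_mul, mono, Matrix.mul_diagonal, Matrix.diagonal_mul]
    have h3 : LE (-k + (l i + 0 + l j)) (W i j) := by
      rw [h1]
      exact (LE.T _).mul (((LE.T _).mul (hWL' i j)).mul (LE.T _))
    exact eq_zero_of_LE_GE h3 (hWG i j) (by omega)
  -- the projections
  let cP : Fin N → B := fun i => if 0 < c i then 1 else 0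
  let cZ : Fin N → B := fun i => if c i = 0 then 1 else 0
  let cQ : Fin N → B := fun i => if c i < 0 then 1 else 0
  let cD : Fin N → B := fun i => if c i = 0 then 1 else if c i < 0 then half else 0
  let dg : (Fin N → B) → Matrix (Fin N) (Fin N) B[T;T⁻¹] := fun c =>
    Matrix.diagonal fun i => LaurentPolynomial.C (c i)
  have hdg : ∀ c, dg c = Matrix.diagonal fun i => (LaurentPolynomial.C (c i) : B[T;T⁻¹]) :=
    fun _ => rfl
  have hcomm : ∀ c, dg c * mono l = mono l * dg c := fun c => So.diag_comm _ _
  have hdtr : ∀ c, (dg c).transpose = dg c := fun c => Matrix.diagonal_transpose _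
  have hdd : ∀ c c', dg c * dg c' = dg fun i => c i * c' i := by
    intro c c'
    simp only [hdg, Matrix.diagonal_mul_diagonal, map_mul]
  have hz : (dg fun _ => (0 : B)) = 0 := by
    rw [hdg]
    simp
  have hent : ∀ (c c' : Fin N → B) (V : Matrix (Fin N) (Fin N) B[T;T⁻¹]) i j,
      (dg c * V * dg c') i j = LaurentPolynomial.C (c i) * V i j * LaurentPolynomial.C (c' j) := by
    intro c c' V i j
    rw [hdg, hdg, Matrix.mul_diagonal, Matrix.diagonal_mul]
  have h1 : dg cP + dg cZ + dg cQ = 1 := by
    rw [hdg, hdg, hdg, Matrix.diagonal_add, Matrix.diagonal_add, ← Matrix.diagonal_one]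
    congr 1
    funext i
    rw [← map_add, ← map_add, ← map_one (LaurentPolynomial.C : B →+* B[T;T⁻¹])]
    congr 1
    simp only [cP, cZ, cQ]
    rcases lt_trichotomy (c i) 0 with h | h | h
    · rw [if_neg (by omega), if_neg (by omega), if_pos h]; simp
    · rw [if_neg (by omega), if_pos h, if_neg (by omega)]; simp
    · rw [if_pos h, if_neg (by omega), if_neg (by omega)]; simp
  have hQQ : dg cQ * W * dg cQ = 0 := by
    ext1 i j
    rw [hent, Matrix.zero_apply]
    simp only [cQ]
    by_cases hi : c i < 0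
    · by_cases hj : c j < 0
      · rw [hW0 i j (by omega), mul_zero, zero_mul]
      · rw [if_neg hj, map_zero, mul_zero]
    · rw [if_neg hi, map_zero, zero_mul, zero_mul]
  have hQZ : dg cQ * W * dg cZ = 0 := by
    ext1 i j
    rw [hent, Matrix.zero_apply]
    simp only [cQ, cZ]
    by_cases hi : c i < 0
    · by_cases hj : c j = 0
      · rw [hW0 i j (by omega), mul_zero, zero_mul]
      · rw [if_neg hj, map_zero, mul_zero]
    · rw [if_neg hi, map_zero, zero_mul, zero_mul]
  have hZQ : dg cZ * W * dg cQ = 0 := by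
    ext1 i j
    rw [hent, Matrix.zero_apply]
    simp only [cQ, cZ]
    by_cases hi : c i = 0
    · by_cases hj : c j < 0
      · rw [hW0 i j (by omega), mul_zero, zero_mul]
      · rw [if_neg hj, map_zero, mul_zero]
    · rw [if_neg hi, map_zero, zero_mul, zero_mul]
  have hPQ : dg cP * dg cQ = 0 := by
    rw [hdd, ← hz]
    congr 1
    funext i
    simp only [cP, cQ]
    by_cases hi : 0 < c i
    · rw [if_neg (show ¬ c i < 0 by omega), mul_zero]
    · rw [if_neg hi, zero_mul]
  have hDP : dg cD * dg cP = 0 := by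
    rw [hdd, ← hz]
    congr 1
    funext i
    simp only [cD, cP]
    by_cases hi : 0 < c i
    · rw [if_neg (show ¬ c i = 0 by omega), if_neg (show ¬ c i < 0 by omega), zero_mul]
    · rw [if_neg hi, mul_zero]
  set v := 1 - dg cP * W * dg cQ * M * dg cD with hv
  set v' := 1 - dg cP * W' * dg cQ * M' * dg cD with hv'
  have hvm : v * mono l = mono l * v' := by
    have e1 : dg cP * W * dg cQ * M * dg cD * mono l = mono l * (dg cP * W' * dg cQ * M' * dg cD) :=
      gs_alg2 (hcomm _) (hcomm _) (hcomm _) hWW hMM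
    rw [hv, hv', Matrix.sub_mul, Matrix.mul_sub, Matrix.one_mul, Matrix.mul_one, e1]
  have hvG : MGE 0 v := by
    have h2 := ((((So.MGE.diag cP).mul hWG).mul (So.MGE.diag cQ)).mul hMG).mul (So.MGE.diag cD)
    have h3 : MGE 0 (dg cP * W * dg cQ * M * dg cD) := by simpa using h2
    exact MGE.one.sub h3
  have hvL : MLE 0 v' := by
    have h2 := ((((So.MLE.diag cP).mul hWL').mul (So.MLE.diag cQ)).mul hML').mul (So.MLE.diag cD)
    have h3 : MLE 0 (dg cP * W' * dg cQ * M' * dg cD) := by simpa using h2
    exact MLE.one.sub h3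
  have hdetv : ∀ (V : Matrix (Fin N) (Fin N) B[T;T⁻¹]), (1 - dg cP * (V * dg cD)).det = 1 := by
    intro V
    rw [Matrix.det_one_sub_mul_comm, Matrix.mul_assoc, hDP, Matrix.mul_zero, sub_zero,
      Matrix.det_one]
  have hv1 : v.det = 1 := by
    have h2 : v = 1 - dg cP * ((W * dg cQ * M) * dg cD) := by
      rw [hv]; simp only [Matrix.mul_assoc]
    rw [h2, hdetv]
  have hv1' : v'.det = 1 := by
    have h2 : v' = 1 - dg cP * ((W' * dg cQ * M') * dg cD) := by
      rw [hv']; simp only [Matrix.mul_assoc]
    rw [h2, hdetv]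
  refine ⟨X * v, Y * v', ?_, ?_, ?_, ?_, ?_, ?_⟩
  · have := hX.mul hvG
    simpa using this
  · rw [Matrix.det_mul, hX1, hv1, one_mul]
  · have := hY.mul hvL
    simpa using this
  · rw [Matrix.det_mul, hY1, hv1', one_mul]
  · rw [← Matrix.mul_assoc, hg, Matrix.mul_assoc, ← hvm, Matrix.mul_assoc]
  · have hMt : M.transpose = -M := form_tr hN X
    have hWt : W.transpose = -W := form_tr' hN X.adjugate
    have hvt : v.transpose = 1 - dg cD * M * dg cQ * W * dg cP :=
      v_tr (hdtr _) (hdtr _) (hdtr _) hMt hWt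
    have e1 : (X * v).transpose * J * (X * v) = M - dg cQ * M * dg cD - dg cD * M * dg cQ := by
      have e2 := So.gs_ring (D := dg cD) h1 hMW hWM hQQ hQZ hZQ hPQ
      rw [← hv, ← hvt] at e2
      rw [← e2, Matrix.transpose_mul]
      simp only [hM, Matrix.mul_assoc]
    intro i j hij
    rw [hsg, hsg] at hij
    have cQn : ∀ i, c i < 0 → cQ i = 1 := fun i h => if_pos h
    have cQz : ∀ i, ¬ c i < 0 → cQ i = 0 := fun i h => if_neg h
    have cD0 : ∀ i, c i = 0 → cD i = 1 := fun i h => if_pos h
    have cDn : ∀ i, c i < 0 → cD i = half := fun i h => by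
      simp only [cD]
      rw [if_neg (by omega), if_pos h]
    rw [e1, Matrix.sub_apply, Matrix.sub_apply, hent, hent]
    rcases lt_trichotomy (c i) 0 with hi | hi | hi
    · rcases lt_trichotomy (c j) 0 with hj | hj | hj
      · have h5 : (LaurentPolynomial.C half : B[T;T⁻¹]) + LaurentPolynomial.C half = 1 := by
          rw [← map_add, hh, map_one]
        rw [cQn i hi, cQn j hj, cDn i hi, cDn j hj, map_one]
        linear_combination (-(M i j)) * h5
      · rw [cQn i hi, cQz j (by omega), cDn i hi, cD0 j hj, map_one, map_zero]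
        ring
      · exfalso
        apply hij
        rw [Int.sign_eq_neg_one_of_neg hi, Int.sign_eq_one_of_pos hj]
        norm_num
    · rcases lt_trichotomy (c j) 0 with hj | hj | hj
      · rw [cQz i (by omega), cQn j hj, cD0 i hi, cDn j hj, map_one, map_zero]
        ring
      · exfalso
        apply hij
        rw [hi, hj, Int.sign_zero, add_zero]
      · rw [hM0 i j (by omega)]
        ring
    · rcases lt_trichotomy (c j) 0 with hj | hj | hj
      · exfalso
        apply hij
        rw [Int.sign_eq_one_of_pos hi, Int.sign_eq_neg_one_of_neg hj]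
        norm_num
      · rw [hM0 i j (by omega)]
        ring
      · rw [hM0 i j (by omega)]
        ring

end

end Vale.Agent.P286.Sp
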