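import Vale.Agent.P286.Sp.Grp

/-!
# The homomorphisms between the groups `Sp_N(A)` and `GSp_N(A)`
-/

namespace Vale.Agent.P286.Sp

open CategoryTheory LaurentPolynomial

noncomputable section

variable {N : ℕ} {A B D : Type} [CommRing A] [CommRing B] [CommRing D]

theorem GS.ext' {x y : GS N A} (h : x.m = y.m) (h' : x.u = y.u) : x = y := by
  cases x
  cases y
  simp only at h h'
  subst h h'
  rfl

/-- The unit. -/
def GS.one (N : ℕ) (A : Type) [CommRing A] : GS N A :=
  ⟨1, 1, gs_one, by rw [Matrix.det_one, Units.val_one, one_pow]⟩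

theorem GS.isUnit_det (x : GS N A) : IsUnit x.m.det := by
  rw [x.hd]
  exact x.u.isUnit.pow _

/-- The inverse. -/
def GS.inv (x : GS N A) : GS N A where
  m := x.m⁻¹
  u := x.u⁻¹
  hm := form_inv (Matrix.mul_nonsing_inv _ x.isUnit_det) (Units.mul_inv x.u) x.hm
  hd := by
    have h1 : x.m.det * x.m⁻¹.det = 1 := by
      rw [← Matrix.det_mul, Matrix.mul_nonsing_inv _ x.isUnit_det, Matrix.det_one]
    rw [x.hd] at h1
    have h2 : ((x.u⁻¹ : Aˣ) : A) ^ (N / 2) * (x.u : A) ^ (N / 2) = 1 := by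
      rw [← mul_pow, Units.inv_mul, one_pow]
    calc x.m⁻¹.det = (((x.u⁻¹ : Aˣ) : A) ^ (N / 2) * (x.u : A) ^ (N / 2)) * x.m⁻¹.det := by
          rw [h2, one_mul]
      _ = _ := by rw [mul_assoc, h1, mul_one]

instance : Group (GS N A) where
  mul := GS.mul
  one := GS.one N A
  inv := GS.inv
  mul_assoc x y z := GS.ext' (Matrix.mul_assoc _ _ _) (mul_assoc _ _ _)
  one_mul x := GS.ext' (Matrix.one_mul _) (one_mul _)
  mul_one x := GS.ext' (Matrix.mul_one _) (mul_one _)
  inv_mul_cancel x := GS.ext' (Matrix.nonsing_inv_mul _ x.isUnit_det) (inv_mul_cancel x.u)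

theorem GS.m_one : (1 : GS N A).m = 1 := rfl

theorem GS.u_one : (1 : GS N A).u = 1 := rfl

theorem GS.m_mul (x y : GS N A) : (x * y).m = x.m * y.m := rfl

theorem GS.u_mul (x y : GS N A) : (x * y).u = x.u * y.u := rfl

theorem GS.u_inv (x : GS N A) : (x⁻¹).u = x.u⁻¹ := rfl

/-- The map `GSp_N(A) → GSp_N(B)` defined by a ring homomorphism `A → B`. -/
def gsm (N : ℕ) (f : A →+* B) : GS N A →* GS N B where
  toFun := gsf f
  map_one' := GS.ext' (map_one f.mapMatrix) (map_one (Units.map (f : A →* B)))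
  map_mul' x y := GS.ext' (map_mul f.mapMatrix x.m y.m) (map_mul (Units.map (f : A →* B)) x.u y.u)

/-- The map `Sp_N(A) → Sp_N(B)` defined by a ring homomorphism `A → B`. -/
def spm (N : ℕ) (f : A →+* B) : SP N A →* SP N B where
  toFun := spf f
  map_one' := Subtype.ext (map_one (Matrix.SpecialLinearGroup.map f))
  map_mul' x y := Subtype.ext (map_mul (Matrix.SpecialLinearGroup.map f) x.1 y.1)

/-- The inclusion `Sp_N(A) → GSp_N(A)`. -/
def incS (N : ℕ) (A : Type) [CommRing A] : SP N A →* GS N A where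
  toFun := toGS
  map_one' := GS.ext' rfl rfl
  map_mul' x y := GS.ext' rfl (mul_one (1 : Aˣ)).symm

/-- `Sp_N(A[z]) → GSp_N(A[z,z⁻¹])` -/
def pos (N : ℕ) (A : Type) [CommRing A] : SP N (Polynomial A) →* GS N A[T;T⁻¹] :=
  (incS N A[T;T⁻¹]).comp (spm N (Polynomial.toLaurent (R := A)))

/-- `Sp_N(A[z⁻¹]) → GSp_N(A[z,z⁻¹])`; the variable of the polynomial ring is `z⁻¹`. -/
def neg (N : ℕ) (A : Type) [CommRing A] : SP N (Polynomial A) →* GS N A[T;T⁻¹] :=
  (incS N A[T;T⁻¹]).comp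
    (spm N ((invert (R := A)).toRingEquiv.toRingHom.comp (Polynomial.toLaurent (R := A))))

theorem Glue.eq {f : A →+* B} {g : GS N A[T;T⁻¹]} {g' : GS N B[T;T⁻¹]}
    {a b : SP N (Polynomial B)} (h : Glue f g g' a b) :
    g' * neg N B b = pos N B a * gsm N (lmap f) g := h

theorem Glue.mk {f : A →+* B} {g : GS N A[T;T⁻¹]} {g' : GS N B[T;T⁻¹]}
    {a b : SP N (Polynomial B)} (h : g' * neg N B b = pos N B a * gsm N (lmap f) g) :
    Glue f g g' a b := h

theorem cmp_eq (f : A →+* B) (x : SP N (Polynomial B)) (y : SP N (Polynomial A)) :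
    cmp f x y = x * spm N (Polynomial.mapRingHom f) y := rfl

end

end Vale.Agent.P286.Sp
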