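import Vale.Agent.P286.Sp.BFun
import Vale.Agent.P286.H211.QE
import Vale.Agent.P286.H211.Fact2
import Vale.Agent.P286.H211.Torus

/-!
# Restriction of twisted `D`-modules to the trivial bundle
-/

namespace Vale.Agent.P286.Sp

open CategoryTheory LaurentPolynomial

noncomputable section

variable {N d : ℕ} [NeZero d]

/-- A constant matrix, as an element of `Sp_N(A[z])`. -/
def cst (N : ℕ) (A : Type) [CommRing A] : SP N A →* SP N (Polynomial A) := spm N Polynomial.C

theorem slm_constSL {A B : Type} [CommRing A] [CommRing B] (f : A →+* B) (x : SP N A) :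
    spm N (Polynomial.mapRingHom f) (cst N A x) = cst N B (spm N f x) := by
  apply SP.ext'
  ext1 i j
  change Polynomial.mapRingHom f (Polynomial.C _) = Polynomial.C (f _)
  simp

theorem ev0_constSL {A : Type} [CommRing A] (x : SP N A) : ev0 N A (cst N A x) = x := by
  apply SP.ext'
  ext1 i j
  change Polynomial.constantCoeff (Polynomial.C (x.m i j)) = x.m i j
  simp

theorem neg_cst (A : Type) [CommRing A] (x : SP N A) : neg N A (cst N A x) = pos N A (cst N A x) := by
  refine GS.ext' ?_ rfl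
  ext1 p q
  change invert (Polynomial.toLaurent (Polynomial.C (x.m p q))) =
    Polynomial.toLaurent (Polynomial.C (x.m p q))
  rw [Polynomial.toLaurent_C, invert_C]

theorem isFraming_one (A : Type) [CommRing A] :
    IsFraming (1 : GS N A[T;T⁻¹]) 1 := by
  have h : ((1 : (Module.End A (Jx N →₀ A))ˣ) : Module.End A (Jx N →₀ A)) -
      toep (1 : GS N A[T;T⁻¹]) = 0 := by
    rw [toep_one]
    exact sub_self (1 : Module.End A (Jx N →₀ A))
  unfold IsFraming
  rw [h]
  exact FinRank.zero

theorem theta_one (A : Type) [CommRing A] :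
    theta (1 : GS N A[T;T⁻¹]) 1 = 1 := by
  unfold theta
  rw [toep_one, inv_one, Units.val_one, mul_one, fdet_one]

theorem neg_const_eq (A : Type) [CommRing A] (x : SP N A) :
    1 * neg N A (cst N A x) = pos N A (cst N A x) * 1 := by
  rw [one_mul, mul_one, neg_cst]

theorem transport_const {A B : Type} [CommRing A] [CommRing B] (f : A →+* B)
    (x : SP N B) :
    transport f (cst N B x) (cst N B x) 1 * 1⁻¹ = 1 := by
  have h : toepNeg N B (cst N B x) = toepPos N B (cst N B x) := by
    apply Units.ext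
    rw [toepNeg_val, toepPos_val, neg_cst]
  rw [transport, map_one, mul_one, h, mul_inv_cancel, inv_one, mul_one]

/-- the trivial bundle with its canonical framing -/
abbrev triv (d : ℕ) [NeZero d] (X : BGObj N) : BunObj N d where
  A := X.A
  g := 1
  mult := ⟨0, Nat.pos_of_neZero d, by rw [GS.u_one, Units.val_one, Nat.cast_zero, T_zero]⟩
  S := 1
  framing := isFraming_one X.A.R

theorem triv_th (X : BGObj N) : (triv d X).th = 1 := theta_one X.A.R

/-- a constant automorphism of the trivial bundle -/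
def jmap (d : ℕ) [NeZero d] {X Y : BGObj N} (φ : X ⟶ Y) : triv d X ⟶ triv d Y :=
  ({ f := BGHom.f φ
     a := cst N Y.A.R (BGHom.h φ)
     b := cst N Y.A.R (BGHom.h φ)
     glue := by
      apply Glue.mk
      rw [map_one]
      exact neg_const_eq Y.A.R (BGHom.h φ) } : BunHom (triv d X) (triv d Y))

theorem jmap_dl {X Y : BGObj N} (φ : X ⟶ Y) : (Bun N d).dl (jmap d φ) = 1 := by
  apply Units.ext
  change fdet ((transport (BGHom.f φ : X.A.R →+* Y.A.R) (cst N Y.A.R (BGHom.h φ))
    (cst N Y.A.R (BGHom.h φ)) 1 * 1⁻¹ : (Module.End Y.A.R (Jx N →₀ Y.A.R))ˣ) :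
      Module.End Y.A.R (Jx N →₀ Y.A.R)) = 1
  rw [transport_const, Units.val_one, fdet_one]

theorem jmap_id (X : BGObj N) : jmap d (𝟙 X) = 𝟙 (triv d X) := by
  apply BunHom.ext
  · rfl
  · change cst N X.A.R 1 = 1
    rw [map_one]
  · change cst N X.A.R 1 = 1
    rw [map_one]

theorem jmap_comp {X Y Z : BGObj N} (φ : X ⟶ Y) (ψ : Y ⟶ Z) :
    jmap d (φ ≫ ψ) = jmap d φ ≫ jmap d ψ := by
  have h : cst N Z.A.R (BGHom.h ψ * spm N
      (BGHom.f ψ : Y.A.R →+* Z.A.R) (BGHom.h φ)) =
      cst N Z.A.R (BGHom.h ψ) * spm N (Polynomial.mapRingHom (BGHom.f ψ : Y.A.R →+* Z.A.R))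
        (cst N Y.A.R (BGHom.h φ)) := by
    rw [map_mul, slm_constSL]
  apply BunHom.ext
  · exact (BunHom.f_comp (jmap d φ) (jmap d ψ)).symm
  · exact h
  · exact h

instance modTriv {s : ℂ} (F : TDMod (Bun N d) s) (X : BGObj N) :
    Module X.A.R (F.M (triv d X)) :=
  F.mod (triv d X)

/-- The restriction to the trivial bundle, on objects. -/
def Jobj {s : ℂ} (F : TDMod (Bun N d) s) : TDMod (BG N d) 0 where
  M X := F.M (triv d X)
  grp X := F.grp (triv d X)
  mod X := F.mod (triv d X)
  act X v m := F.act (triv d X) v m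
  act_add X v m m' := F.act_add (triv d X) v m m'
  add_act X v w m := F.add_act (triv d X) v w m
  smul_act X a v m := F.smul_act (triv d X) a v m
  leibniz X v a m := F.leibniz (triv d X) v a m
  lie_act X v w m := F.lie_act (triv d X) v w m
  map φ := F.map (jmap d φ)
  map_smul {X Y} φ a m := F.map_smul (jmap d φ) a m
  map_id X m := by
    rw [jmap_id]
    exact F.map_id _ m
  map_comp φ ψ m := by
    rw [jmap_comp]
    exact F.map_comp _ _ m
  map_act {X Y} φ w k c v h m := by
    have h1 := F.map_act (jmap d φ) w k c v h m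
    rw [jmap_dl] at h1
    rw [map_zero, zero_mul, zero_mul, zero_smul, sub_zero]
    refine h1.trans ?_
    have h2 : w ((1 : (Y.A.R)ˣ) : Y.A.R) = 0 := by
      rw [Units.val_one]
      exact Derivation.map_one_eq_zero w
    have h3 : (algebraMap ℂ Y.A.R s * ((1 : (Y.A.R)ˣ)⁻¹ : (Y.A.R)ˣ) *
        w ((1 : (Y.A.R)ˣ) : Y.A.R)) • F.map (jmap d φ) m = 0 := by
      rw [h2, mul_zero, zero_smul]
    exact (congrArg (_ - ·) h3).trans (sub_zero _)
  map_cen X φ h m := by
    obtain ⟨h1, ζ, hζ, hh⟩ := h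
    apply F.map_cen
    have hc : (cst N X.A.R (BGHom.h φ)).1.1 =
        Matrix.scalar (Fin N) (algebraMap ℂ (Polynomial X.A.R) ζ) := by
      ext1 i j
      change Polynomial.C ((BGHom.h φ).1.1 i j) = _
      rw [hh, Matrix.scalar_apply, Matrix.scalar_apply, Matrix.diagonal_apply,
        Matrix.diagonal_apply]
      split_ifs
      · rfl
      · simp
    exact ⟨h1, ζ, hζ, hc, hc⟩

/-- The restriction to the trivial bundle. -/
def Jfun (N d : ℕ) [NeZero d] (s : ℂ) : TDMod (Bun N d) s ⥤ TDMod (BG N d) 0 where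
  obj F := Jobj F
  map {F F'} f :=
    { app := fun X => TDMod.Hom.app f (triv d X)
      act := fun X v m => TDMod.Hom.act f (triv d X) v m
      nat := fun φ m => TDMod.Hom.nat f (jmap d φ) m }
  map_id F := rfl
  map_comp f g := rfl

instance (N d : ℕ) [NeZero d] (s : ℂ) : (Jfun N d s).Additive where
  map_add {F F' f g} := by
    apply TDMod.hom_ext
    intro X m
    rfl

instance (N d : ℕ) [NeZero d] (s : ℂ) : (Jfun N d s).Linear ℂ where
  map_smul f c := by
    apply TDMod.hom_ext
    intro X m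
    rfl

theorem presCart_J (N d : ℕ) [NeZero d] (s : ℂ) : PresCart (Jfun N d s) where
  cart K hK X := by
    obtain ⟨P, hP, p, h1, h2, h3⟩ := hK (triv d X)
    exact ⟨P, hP, p, h1, h2, fun Y φ i j k hi hj => h3 (triv d Y) (jmap d φ) i j k hi hj⟩
  qis K L u _ _ hu := fun X i j k hi hj => hu (triv d X) i j k hi hj

end

end Vale.Agent.P286.Sp
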