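import Vale.Agent.P286.Sp.Mu
import Vale.Agent.P286.H527.BrFin

/-!
# The equivalences at irrational level on the projective line, for `Sp_N/μ_d`
-/

namespace Vale.Agent.P286.Sp

open CategoryTheory LaurentPolynomial

noncomputable section

/-- The restriction to the trivial bundle is a quasi-equivalence. -/
theorem isQuasiEquiv_J {N d : ℕ} [NeZero d] (hd2 : d ≤ 2) (hN0 : 0 < N) (hN : Even N) {s : ℂ}
    (hs : ∀ m : ℤ, m ≠ 0 → ∀ k : ℤ, (k : ℂ) + s * m ≠ 0) : IsQuasiEquiv (Jfun N d s) :=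
  quasiEquiv_of_inverse (Jfun N d s) (Bfun N d s) (presCart_J N d s) (presCart_B N d s)
    (Or.inl ⟨eps1 hd2 hN0 hN s, fun K hK => eps1_qis hd2 hN0 hN hs K hK⟩)
    (Or.inl ⟨eps2 N d s, fun K _ => eps2_qis N d s K⟩)

/-- Irrational twists are not resonant. -/
theorem not_resonant {h : ℕ} (hh : 0 < h) {c : ℂ} (hc : ∀ q : ℚ, c ≠ (q : ℂ)) (m : ℤ)
    (hm : m ≠ 0) (k : ℤ) : (k : ℂ) + ((h : ℂ) - c) / (2 * h) * m ≠ 0 :=
  P286.not_resonant hh hc m hm k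

/-- If `c` is irrational, then so is `-1/(2c)`. -/
theorem irrational_inv {c : ℂ} (hc : ∀ q : ℚ, c ≠ (q : ℂ)) (q : ℚ) : -1 / (2 * c) ≠ (q : ℂ) := by
  apply P286.irrational_inv
  intro q' h
  apply hc (q' / 2)
  push_cast
  rw [← h]
  ring

theorem cen_BG (N : ℕ) (X : BGObj N) : (BG N 1).cen X = {𝟙 X} := by
  ext φ
  constructor
  · rintro ⟨h1, ζ, hζ, h2⟩
    rw [pow_one] at hζ
    subst hζ
    apply BGHom.ext
    · exact h1
    · apply SP.ext'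
      refine h2.trans ?_
      rw [map_one]
      exact map_one (Matrix.scalar (Fin N))
  · rintro rfl
    refine ⟨rfl, 1, one_pow 1, ?_⟩
    unfold IsScal
    rw [map_one]
    exact (map_one (Matrix.scalar (Fin N))).symm

theorem toT_BG (N : ℕ) : (BG N 1).toT 0 = BSP N := by
  have h : (BG N 1).cen = fun X => {𝟙 X} := funext fun X => cen_BG N X
  unfold Site.toT BSP
  rw [h]
  rfl

theorem dg_BG {N d : ℕ} (hd : d ∣ 2) (hN0 : 0 < N) (hN : Even N) {s : ℂ}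
    (hs : ∀ m : ℤ, m ≠ 0 → ∀ k : ℤ, (k : ℂ) + s * m ≠ 0) :
    DGEquivalent (Bun N d, s) (BG N 1, 0) := by
  have : NeZero d := ⟨by rintro rfl; rw [zero_dvd_iff] at hd; omega⟩
  exact Relation.EqvGen.trans _ (BG N d, 0) _
    (Relation.EqvGen.rel _ _ ⟨Jfun N d s, inferInstance, inferInstance,
      isQuasiEquiv_J (Nat.le_of_dvd two_pos hd) hN0 hN hs⟩)
    (Relation.EqvGen.rel _ _ (dgStep_BG hN hd 0))

/-- `D(ω^s) ≃ D(BSp_N)` on `Bun_{Sp_N/μ_d}(ℙ¹)` for irrational `s`. -/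
theorem main {N d : ℕ} (hd : d ∣ 2) (hN0 : 0 < N) (hN : Even N) {s : ℂ}
    (hs : ∀ m : ℤ, m ≠ 0 → ∀ k : ℤ, (k : ℂ) + s * m ≠ 0) :
    St.DGEquivalent (BunSP N d s) (BSP N) := by
  have h := Br.dgEquivalent (dg_BG hd hN0 hN hs)
  change St.DGEquivalent ((Bun N d).toT s) ((BG N 1).toT 0) at h
  rw [toT_Bun, toT_BG] at h
  exact h

theorem nonzero_Bun {N d : ℕ} (hd : d ∣ 2) (s : ℂ) :
    ∃ K : St.Cx (BunSP N d s), St.Cx.Cart K ∧ ¬ K.Acyclic := by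
  have : NeZero d := ⟨by rintro rfl; rw [zero_dvd_iff] at hd; omega⟩
  exact Br.nonzero (cartesian_strBun N d s) (not_tAcyclic_strBun N d s)

end

end Vale.Agent.P286.Sp
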