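import Vale.Agent.P286.Sp.Fm
import Vale.Agent.P286.Loop

/-!
# Symplectic matrices: closure properties
-/

namespace Vale.Agent.P286.Sp

open Matrix

variable {N : ℕ} {A B : Type} [CommRing A] [CommRing B]

theorem fm_map (f : A →+* B) : (fm N A).map f = fm N B := by
  ext i j
  simp only [fm, Matrix.map_apply, Matrix.of_apply]
  split_ifs <;> simp

theorem rev_lt (hN : Even N) (i : Fin N) : (i.rev : ℕ) < N / 2 ↔ ¬ (i : ℕ) < N / 2 := by
  obtain ⟨m, rfl⟩ := hN
  have := i.2
  rw [Fin.val_rev]
  omega

theorem fm_sq (hN : Even N) : fm N A * fm N A = -1 := by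
  ext i k
  rw [Matrix.mul_apply, Finset.sum_eq_single i.rev]
  · simp only [fm, Matrix.of_apply, if_true, Fin.rev_rev, Matrix.neg_apply, Matrix.one_apply,
      rev_lt hN]
    by_cases h : i = k
    · subst h
      simp only [if_true]
      split_ifs <;> simp
    · rw [if_neg h, if_neg (show ¬ k = i from fun h' => h h'.symm), mul_zero, neg_zero]
  · intro j _ hj
    simp only [fm, Matrix.of_apply]
    rw [if_neg hj, zero_mul]
  · intro h
    exact absurd (Finset.mem_univ _) h

theorem fm_tr (hN : Even N) : (fm N A).transpose = - fm N A := by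
  ext i j
  simp only [fm, Matrix.transpose_apply, Matrix.of_apply, Matrix.neg_apply]
  by_cases h : j = i.rev
  · subst h
    simp only [Fin.rev_rev, if_true, rev_lt hN]
    split_ifs <;> simp
  · rw [if_neg h, if_neg, neg_zero]
    rintro rfl
    exact h (Fin.rev_rev j).symm

theorem sp_mul {x y : Matrix.SpecialLinearGroup (Fin N) A}
    (hx : (x : Matrix (Fin N) (Fin N) A).transpose * fm N A * (x : Matrix (Fin N) (Fin N) A) =
      fm N A)
    (hy : (y : Matrix (Fin N) (Fin N) A).transpose * fm N A * (y : Matrix (Fin N) (Fin N) A) =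
      fm N A) :
    ((x * y : Matrix.SpecialLinearGroup (Fin N) A) : Matrix (Fin N) (Fin N) A).transpose *
      fm N A * ((x * y : Matrix.SpecialLinearGroup (Fin N) A) : Matrix (Fin N) (Fin N) A) =
      fm N A := by
  simp only [Matrix.SpecialLinearGroup.coe_mul, Matrix.transpose_mul]
  calc _ = (y : Matrix (Fin N) (Fin N) A).transpose *
        ((x : Matrix (Fin N) (Fin N) A).transpose * fm N A * (x : Matrix (Fin N) (Fin N) A)) *
        (y : Matrix (Fin N) (Fin N) A) := by simp only [Matrix.mul_assoc]
    _ = fm N A := by rw [hx, hy]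

theorem form_inv {R : Type} [CommRing R] {F x y : Matrix (Fin N) (Fin N) R} {u v : R}
    (hxy : x * y = 1) (huv : u * v = 1) (hx : x.transpose * F * x = u • F) :
    y.transpose * F * y = v • F := by
  have h1 : y.transpose * x.transpose = 1 := by
    rw [← Matrix.transpose_mul, hxy, Matrix.transpose_one]
  have h2 : u • (y.transpose * F * y) = F := by
    calc u • (y.transpose * F * y) = y.transpose * (u • F) * y := by
          rw [Matrix.mul_smul, Matrix.smul_mul]
      _ = (y.transpose * x.transpose) * F * (x * y) := by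
          rw [← hx]; simp only [Matrix.mul_assoc]
      _ = F := by rw [h1, hxy, Matrix.one_mul, Matrix.mul_one]
  calc y.transpose * F * y = (v * u) • (y.transpose * F * y) := by
        rw [mul_comm, huv, one_smul]
    _ = v • F := by rw [mul_smul, h2]

theorem sp_inv {x : Matrix.SpecialLinearGroup (Fin N) A}
    (hx : (x : Matrix (Fin N) (Fin N) A).transpose * fm N A * (x : Matrix (Fin N) (Fin N) A) =
      fm N A) :
    ((x⁻¹ : Matrix.SpecialLinearGroup (Fin N) A) : Matrix (Fin N) (Fin N) A).transpose *
      fm N A * ((x⁻¹ : Matrix.SpecialLinearGroup (Fin N) A) : Matrix (Fin N) (Fin N) A) =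
      fm N A := by
  have h1 : (x : Matrix (Fin N) (Fin N) A) * ((x⁻¹ : Matrix.SpecialLinearGroup (Fin N) A) :
      Matrix (Fin N) (Fin N) A) = 1 := by
    rw [← Matrix.SpecialLinearGroup.coe_mul, mul_inv_cancel, Matrix.SpecialLinearGroup.coe_one]
  have h2 := form_inv (F := fm N A) (u := 1) (v := 1) h1 (one_mul 1) (by rw [one_smul]; exact hx)
  rw [one_smul] at h2
  exact h2

theorem det_map_one (f : A →+* B) {x : Matrix (Fin N) (Fin N) A} (h : x.det = 1) :
    (x.map f).det = 1 := by
  have := f.map_det x
  rw [h, map_one] at this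
  exact this.symm

theorem fm_map_eq (f : A →+* B) {x : Matrix (Fin N) (Fin N) A}
    (h : x.transpose * fm N A * x = fm N A) :
    (x.map f).transpose * fm N B * x.map f = fm N B := by
  have h := congrArg f.mapMatrix h
  rw [map_mul, map_mul] at h
  rw [← fm_map (N := N) f]
  exact h

theorem gs_one : (1 : Matrix (Fin N) (Fin N) A).transpose * fm N A * 1 =
    ((1 : Aˣ) : A) • fm N A := by
  rw [Matrix.transpose_one, Matrix.one_mul, Matrix.mul_one, Units.val_one, one_smul]

theorem gs_mul {x y : Matrix (Fin N) (Fin N) A} {u v : Aˣ}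
    (hx : x.transpose * fm N A * x = (u : A) • fm N A)
    (hy : y.transpose * fm N A * y = (v : A) • fm N A) :
    (x * y).transpose * fm N A * (x * y) = ((u * v : Aˣ) : A) • fm N A := by
  calc (x * y).transpose * fm N A * (x * y) = y.transpose * (x.transpose * fm N A * x) * y := by
        rw [Matrix.transpose_mul]; simp only [Matrix.mul_assoc]
    _ = (u : A) • (y.transpose * fm N A * y) := by
        rw [hx, Matrix.mul_smul, Matrix.smul_mul]
    _ = _ := by rw [hy, smul_smul, Units.val_mul]

theorem gs_mul_det {x y : Matrix (Fin N) (Fin N) A} {u v : Aˣ} (hx : x.det = (u : A) ^ (N / 2))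
    (hy : y.det = (v : A) ^ (N / 2)) : (x * y).det = ((u * v : Aˣ) : A) ^ (N / 2) := by
  rw [Matrix.det_mul, hx, hy, Units.val_mul, mul_pow]

theorem gs_of_sp {x : Matrix (Fin N) (Fin N) A} (hx : x.transpose * fm N A * x = fm N A) :
    x.transpose * fm N A * x = ((1 : Aˣ) : A) • fm N A := by
  rw [hx, Units.val_one, one_smul]

theorem gs_of_sp_det {x : Matrix (Fin N) (Fin N) A} (hx : x.det = 1) :
    x.det = ((1 : Aˣ) : A) ^ (N / 2) := by
  rw [hx, Units.val_one, one_pow]

theorem gs_map_det (f : A →+* B) {x : Matrix (Fin N) (Fin N) A} {u : Aˣ}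
    (hx : x.det = (u : A) ^ (N / 2)) :
    (x.map f).det = ((Units.map (f : A →* B) u : Bˣ) : B) ^ (N / 2) := by
  have := f.map_det x
  rw [hx, map_pow] at this
  exact this.symm

theorem gs_map_hm (f : A →+* B) {x : Matrix (Fin N) (Fin N) A} {u : Aˣ}
    (h : x.transpose * fm N A * x = (u : A) • fm N A) :
    (x.map f).transpose * fm N B * x.map f = ((Units.map (f : A →* B) u : Bˣ) : B) • fm N B := by
  have h := congrArg f.mapMatrix h
  rw [map_mul, map_mul] at h
  rw [← fm_map (N := N) f]
  refine Eq.trans h ?_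
  ext i j
  show f (((u : A) • fm N A) i j) = (f (u : A) • (fm N A).map f) i j
  rw [Matrix.smul_apply, Matrix.smul_apply, Matrix.map_apply, smul_eq_mul, smul_eq_mul, map_mul]

/-- The similitudes. -/
theorem gs_map (f : A →+* B) {x : Matrix (Fin N) (Fin N) A} {u : A}
    (h : x.transpose * fm N A * x = u • fm N A) :
    (x.map f).transpose * fm N B * x.map f = f u • fm N B := by
  have h := congrArg f.mapMatrix h
  rw [map_mul, map_mul] at h
  rw [← fm_map (N := N) f]
  refine Eq.trans h ?_
  ext i j
  show f ((u • fm N A) i j) = (f u • (fm N A).map f) i j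
  rw [Matrix.smul_apply, Matrix.smul_apply, Matrix.map_apply, smul_eq_mul, smul_eq_mul, map_mul]

end Vale.Agent.P286.Sp
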