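import Vale.Agent.P286.Sp.Eps1
import Vale.Agent.P286.H211.PresB
import Vale.Agent.P286.H211.Sane

/-!
# The functor `B` preserves cartesian complexes
-/

namespace Vale.Agent.P286.Sp

open CategoryTheory TensorProduct

variable {N d : ℕ}

theorem associated_th {X Y : BunObj N d} (φ : BunHom X Y) :
    Associated Y.th ((φ.f : X.A.R →+* Y.A.R) X.th) := by
  refine ⟨φ.dl⁻¹, ?_⟩
  rw [BunObj.th_map φ, mul_comm, ← mul_assoc, Units.inv_mul, one_mul]
  rfl

theorem presCart_B (N d : ℕ) (s : ℂ) : PresCart (Bfun N d s) where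
  cart K hK X := by
    obtain ⟨P, hP, p, h1, h2, h3⟩ := hK X.lo
    have : Module.Flat X.A.R (Lo X.th) := IsLocalization.flat (Lo X.th) (Submonoid.powers X.th)
    refine ⟨P.restr X.A.R, P.flat_restr X.A.R hP, fun i =>
      { toFun := p i
        map_add' := map_add _
        map_smul' := fun (a : X.A.R) (x : P.X i) =>
          map_smul (p i) (algebraMap X.A.R (Lo X.th) a : (BG N d).R X.lo) x }, h1, h2, ?_⟩
    intro Y φ i j k hi hk
    have h4 := h3 (BunObj.lo Y) (Lmap φ) i j k hi hk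
    obtain ⟨e, he, hd⟩ := ExtS.exists_loc_cx (BunHom.f φ : X.A.R →+* Y.A.R) X.th Y.th
      (A' := Lo X.th) (B' := Lo Y.th) (associated_th φ)
      (locMap (BunHom.f φ) (BunObj.isUnit_map φ) : Lo X.th →+* Lo Y.th)
      (locMap_algebraMap (BunHom.f φ) (BunObj.isUnit_map φ)) P
    refine HIso.congr_left h4 (e i) (e j) (e k) (hd i j) (hd j k) ?_
    intro x
    exact ExtS.lift_loc (BunHom.f φ : X.A.R →+* Y.A.R)
      (locMap (BunHom.f φ) (BunObj.isUnit_map φ) : Lo X.th →+* Lo Y.th)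
      P j (N := K.obj j Y.lo) (e j) (he j)
      ((K.map (Lmap φ) j).comp (p j).toAddMonoidHom) _ _ x
  qis K L u _ _ hu := fun X i j k hi hj => hu X.lo i j k hi hj

end Vale.Agent.P286.Sp
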