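import Vale.Agent.P286.Sp.Hom
import Vale.Agent.P286.H527.Maps

/-!
# Toeplitz operators on symmetric matrices
-/

namespace Vale.Agent.P286.Sp

open LaurentPolynomial Matrix

noncomputable section

variable {N : ℕ} {A B : Type} [CommRing A] [CommRing B]

/-- Symmetric matrices. -/
def IsSy {R : Type} [CommRing R] (M : Matrix (Fin N) (Fin N) R) : Prop := M.transpose = M

theorem IsSy.conj {R : Type} [CommRing R] {X : Matrix (Fin N) (Fin N) R} (h : IsSy X)
    (g : Matrix (Fin N) (Fin N) R) : IsSy (g * (X * g.transpose)) := by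
  unfold IsSy at *
  rw [Matrix.transpose_mul, Matrix.transpose_mul, Matrix.transpose_transpose, h, Matrix.mul_assoc]

theorem IsSy.smul {R : Type} [CommRing R] {X : Matrix (Fin N) (Fin N) R} (h : IsSy X)
    (u : R) : IsSy (u • X) := by
  unfold IsSy at *
  rw [Matrix.transpose_smul, h]

theorem IsSy.sub {R : Type} [CommRing R] {X Y : Matrix (Fin N) (Fin N) R} (h : IsSy X)
    (h' : IsSy Y) : IsSy (X - Y) := by
  unfold IsSy at *
  rw [Matrix.transpose_sub, h, h']

theorem IsSy.apply {R : Type} [CommRing R] {X : Matrix (Fin N) (Fin N) R} (h : IsSy X)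
    (i j : Fin N) : X i j = X j i := congrFun (congrFun h.symm i) j

/-- The symmetric matrix with a given upper triangular part. -/
def symz {R : Type} (M : Matrix (Fin N) (Fin N) R) : Matrix (Fin N) (Fin N) R :=
  Matrix.of fun p q => M (min p q) (max p q)

theorem isSy_symz {R : Type} [CommRing R] (M : Matrix (Fin N) (Fin N) R) : IsSy (symz M) := by
  ext i j
  show M (min j i) (max j i) = M (min i j) (max i j)
  rw [min_comm, max_comm]

theorem symz_add {R : Type} [CommRing R] (M M' : Matrix (Fin N) (Fin N) R) :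
    symz (M + M') = symz M + symz M' := rfl

theorem toSym_eq (x : Jx N →₀ A) :
    toSym N A x = symz (toMat N A (x.mapDomain (emb N))) := by
  induction x using Finsupp.induction_linear with
  | zero =>
    rw [map_zero, Finsupp.mapDomain_zero, map_zero]
    rfl
  | add x y hx hy =>
    rw [map_add, hx, hy, Finsupp.mapDomain_add, map_add, symz_add]
  | single i a =>
    rw [Finsupp.mapDomain_single, toSym, toMat, Finsupp.linearCombination_single,
      Finsupp.linearCombination_single]
    ext1 p q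
    rw [Matrix.smul_apply]
    show a • bas N A i p q = (a • Matrix.single i.2.1.1 i.2.1.2 (T (-(i.1 : ℤ)) : A[T;T⁻¹]))
      (min p q) (max p q)
    rw [Matrix.smul_apply, Matrix.single_apply]
    congr 1
    show (if min p q = i.2.1.1 ∧ max p q = i.2.1.2 then T (-(i.1 : ℤ)) else 0) = _
    by_cases h : min p q = i.2.1.1 ∧ max p q = i.2.1.2
    · rw [if_pos h, if_pos ⟨h.1.symm, h.2.symm⟩]
    · rw [if_neg h, if_neg fun h' => h ⟨h'.1.symm, h'.2.symm⟩]

theorem isSy_toSym (x : Jx N →₀ A) : IsSy (toSym N A x) := by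
  rw [toSym_eq]
  exact isSy_symz _

theorem toSym_MLE (x : Jx N →₀ A) : MLE 0 (toSym N A x) := by
  rw [toSym_eq]
  exact fun i j => toMat_MLE _ (min i j) (max i j)

theorem toSym_coeff (x : Jx N →₀ A) (i : Jx N) :
    (toSym N A x i.2.1.1 i.2.1.2).coeff (-(i.1 : ℤ)) = x i := by
  obtain ⟨l, ⟨⟨p, q⟩, hpq⟩⟩ := i
  simp only at hpq
  rw [toSym_eq]
  show (toMat N A (x.mapDomain (emb N)) (min p q) (max p q)).coeff (-(l : ℤ)) = _
  rw [min_eq_left hpq, max_eq_right hpq, toMat_coeff]
  exact Finsupp.mapDomain_apply (emb_injective N) x (l, ⟨(p, q), hpq⟩)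

theorem apart_apply (M : Matrix (Fin N) (Fin N) A[T;T⁻¹]) (i : Jx N) :
    apart N A M i = (M i.2.1.1 i.2.1.2).coeff (-(i.1 : ℤ)) := npart_apply M (emb N i)

theorem apart_toSym (x : Jx N →₀ A) : apart N A (toSym N A x) = x := by
  ext i
  rw [apart_apply, toSym_coeff]

theorem sub_toSym_apart {M : Matrix (Fin N) (Fin N) A[T;T⁻¹]} (h : IsSy M) :
    MGE 1 (M - toSym N A (apart N A M)) := by
  have key : ∀ (p q : Fin N), p ≤ q → ∀ l : ℕ,
      ((M - toSym N A (apart N A M)) p q).coeff (-(l : ℤ)) = 0 := by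
    intro p q hpq l
    have := toSym_coeff (apart N A M) (l, ⟨(p, q), hpq⟩)
    simp only at this
    rw [Matrix.sub_apply, AddMonoidAlgebra.coeff_sub, Finsupp.sub_apply, this, apart_apply, sub_self]
  have hal := h.sub (isSy_toSym (apart N A M))
  intro p q m hm
  obtain ⟨l, rfl⟩ : ∃ l : ℕ, m = -(l : ℤ) := ⟨m.natAbs, by omega⟩
  rcases le_total p q with hpq | hpq
  · exact key p q hpq l
  · rw [hal.apply p q]
    exact key q p hpq l

theorem toSym_apart {M : Matrix (Fin N) (Fin N) A[T;T⁻¹]} (h : MLE 0 M) (h' : IsSy M) :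
    toSym N A (apart N A M) = M := by
  have h1 := sub_toSym_apart h'
  have h2 : MLE 0 (M - toSym N A (apart N A M)) := h.sub (toSym_MLE _)
  have h3 : M - toSym N A (apart N A M) = 0 := by
    ext1 i j
    exact eq_zero_of_LE_GE (h2 i j) (h1 i j) (by norm_num)
  exact (sub_eq_zero.1 h3).symm

theorem apart_eq_zero {M : Matrix (Fin N) (Fin N) A[T;T⁻¹]} (h : MGE 1 M) : apart N A M = 0 := by
  ext i
  rw [apart_apply]
  exact h _ _ _ (by omega)

theorem sytoep_apply (u : A[T;T⁻¹]) (g : Matrix (Fin N) (Fin N) A[T;T⁻¹]) (x : Jx N →₀ A) :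
    sytoep u g x = apart N A (u • (g * (toSym N A x * g.transpose))) := by
  show apart N A ((u • g) * (toSym N A x * g.transpose)) = _
  rw [Matrix.smul_mul]

theorem sytoep_one : sytoep 1 (1 : Matrix (Fin N) (Fin N) A[T;T⁻¹]) = 1 := by
  apply LinearMap.ext
  intro x
  rw [sytoep_apply, Matrix.transpose_one, one_mul, mul_one, one_smul, apart_toSym,
    Module.End.one_apply]

theorem MGE.tr {k : ℤ} {X : Matrix (Fin N) (Fin N) A[T;T⁻¹]} (h : MGE k X) :
    MGE k X.transpose := fun i j => h j i

theorem MLE.tr {k : ℤ} {X : Matrix (Fin N) (Fin N) A[T;T⁻¹]} (h : MLE k X) :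
    MLE k X.transpose := fun i j => h j i

theorem sytoep_pos_mul (u : A[T;T⁻¹]) {a : Matrix (Fin N) (Fin N) A[T;T⁻¹]} (ha : MGE 0 a)
    (g : Matrix (Fin N) (Fin N) A[T;T⁻¹]) : sytoep u (a * g) = sytoep 1 a * sytoep u g := by
  apply LinearMap.ext
  intro x
  rw [Module.End.mul_apply, sytoep_apply, sytoep_apply 1 a, sytoep_apply u g, one_smul]
  set M := u • (g * (toSym N A x * g.transpose)) with hM
  have hal : IsSy M := ((isSy_toSym x).conj g).smul u
  have e : u • (a * g * (toSym N A x * (a * g).transpose)) = a * (M * a.transpose) := by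
    rw [Matrix.transpose_mul, hM, Matrix.smul_mul, Matrix.mul_smul]
    simp only [Matrix.mul_assoc]
  rw [e]
  have e2 : a * (M * a.transpose) = a * (toSym N A (apart N A M) * a.transpose) +
      a * ((M - toSym N A (apart N A M)) * a.transpose) := by
    rw [← Matrix.mul_add, ← Matrix.add_mul]
    simp
  rw [e2, map_add]
  have h3 : MGE 1 (a * ((M - toSym N A (apart N A M)) * a.transpose)) := by
    have := ha.mul ((sub_toSym_apart hal).mul (MGE.tr ha))
    simpa using this
  rw [apart_eq_zero h3, add_zero]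

theorem sytoep_mul_neg (u : A[T;T⁻¹]) (g : Matrix (Fin N) (Fin N) A[T;T⁻¹])
    {b : Matrix (Fin N) (Fin N) A[T;T⁻¹]} (hb : MLE 0 b) :
    sytoep u (g * b) = sytoep u g * sytoep 1 b := by
  apply LinearMap.ext
  intro x
  rw [Module.End.mul_apply, sytoep_apply, sytoep_apply u g, sytoep_apply 1 b, one_smul]
  have h3 : MLE 0 (b * (toSym N A x * b.transpose)) := by
    have := hb.mul ((toSym_MLE x).mul (MLE.tr hb))
    simpa using this
  rw [toSym_apart h3 ((isSy_toSym x).conj b)]
  congr 2
  rw [Matrix.transpose_mul]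
  simp only [Matrix.mul_assoc]

theorem toSym_single (i : Jx N) : toSym N A (Finsupp.single i 1) = bas N A i := by
  rw [toSym, Finsupp.linearCombination_single, one_smul]

theorem apart_map (f : A →+* B) (M : Matrix (Fin N) (Fin N) A[T;T⁻¹]) :
    apart N B (M.map (lmap f)) = (apart N A M).mapRange f (map_zero f) := by
  ext i
  rw [apart_apply, Finsupp.mapRange_apply, apart_apply, Matrix.map_apply, lmap,
    AddMonoidAlgebra.coeff_mapRingHom]

theorem bc_sytoep (f : A →+* B) (u : A[T;T⁻¹]) (g : Matrix (Fin N) (Fin N) A[T;T⁻¹]) :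
    bc f (sytoep u g) = sytoep (lmap f u) (mp f g) := by
  refine end_ext_single fun i => ?_
  rw [bc_single, sytoep_apply, sytoep_apply, ← apart_map, toSym_single, toSym_single]
  congr 1
  have e0 : (u • (g * (bas N A i * g.transpose))).map (lmap f) =
      lmap f u • (g * (bas N A i * g.transpose)).map (lmap f) := by
    ext1 p q
    rw [Matrix.map_apply, Matrix.smul_apply, Matrix.smul_apply, smul_eq_mul, smul_eq_mul, map_mul,
      Matrix.map_apply]
  rw [e0, Matrix.map_mul, Matrix.map_mul]
  have e1 : (g.transpose).map (lmap f) = (mp f g).transpose := rfl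
  have e2 : g.map (lmap f) = mp f g := rfl
  rw [e1, e2]
  congr 3
  ext1 p q
  rw [Matrix.map_apply]
  show lmap f (if min p q = i.2.1.1 ∧ max p q = i.2.1.2 then T (-(i.1 : ℤ)) else 0) =
    (if min p q = i.2.1.1 ∧ max p q = i.2.1.2 then T (-(i.1 : ℤ)) else 0)
  split_ifs
  · exact lmap_T f _
  · exact map_zero _

section Groups

theorem SP.ext' {x y : SP N A} (h : x.m = y.m) : x = y :=
  Subtype.ext (Subtype.ext h)

theorem SP.m_one : (1 : SP N A).m = 1 := rfl

theorem SP.m_mul (x y : SP N A) : (x * y).m = x.m * y.m := rfl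

theorem SP.form (x : SP N A) : x.m.transpose * fm N A * x.m = fm N A := x.2

theorem SP.det_m (x : SP N A) : x.m.det = 1 := x.1.2

theorem m_spm (f : A →+* B) (x : SP N A) : (spm N f x).m = x.m.map f := rfl

theorem pos_u (a : SP N (Polynomial A)) : (pos N A a).u = 1 := rfl

theorem neg_u (a : SP N (Polynomial A)) : (neg N A a).u = 1 := rfl

/-- An element of `Sp_N` from a matrix. -/
def SP.mk' (X : Matrix (Fin N) (Fin N) A) (h : X.det = 1)
    (h' : X.transpose * fm N A * X = fm N A) : SP N A :=
  ⟨⟨X, h⟩, h'⟩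

theorem SP.mk'_m (X : Matrix (Fin N) (Fin N) A) (h : X.det = 1)
    (h' : X.transpose * fm N A * X = fm N A) : (SP.mk' X h h').m = X := rfl

theorem spm_spm {D : Type} [CommRing D] (f : A →+* B) (g : B →+* D) (x : SP N A) :
    spm N g (spm N f x) = spm N (g.comp f) x := rfl

theorem gsm_gsm {D : Type} [CommRing D] (f : A →+* B) (g : B →+* D) (x : GS N A) :
    gsm N g (gsm N f x) = gsm N (g.comp f) x := GS.ext' rfl (Units.ext rfl)

theorem gsm_incS (f : A →+* B) (x : SP N A) : gsm N f (incS N A x) = incS N B (spm N f x) :=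
  GS.ext' rfl (Units.ext (map_one f))

theorem spm_id (x : SP N A) : spm N (RingHom.id A) x = x := rfl

theorem spm_injective (f : A →+* B) (hf : Function.Injective f) :
    Function.Injective (spm N f) := by
  intro x y h
  apply SP.ext'
  ext i j
  apply hf
  exact congrFun (congrFun (congrArg SP.m h) i) j

/-- `A[z] → A[z, z⁻¹]` -/
abbrev ringPos (A : Type) [CommRing A] : Polynomial A →+* A[T;T⁻¹] := Polynomial.toLaurent

/-- `A[z⁻¹] → A[z, z⁻¹]` -/
abbrev ringNeg (A : Type) [CommRing A] : Polynomial A →+* A[T;T⁻¹] :=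
  (invert (R := A)).toRingEquiv.toRingHom.comp (Polynomial.toLaurent (R := A))

theorem ringNeg_injective : Function.Injective (ringNeg A) := fun x y h => by
  apply Polynomial.toLaurent_injective
  exact (invert (R := A)).injective h

theorem lmap_comp_neg (f : A →+* B) :
    (lmap f).comp (ringNeg A) = (ringNeg B).comp (Polynomial.mapRingHom f) := by
  apply RingHom.ext
  intro x
  change lmap f (invert (Polynomial.toLaurent x)) =
    invert (Polynomial.toLaurent (Polynomial.mapRingHom f x))
  have h := RingHom.congr_fun (lmap_toLaurent f) x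
  change lmap f (Polynomial.toLaurent x) = Polynomial.toLaurent (Polynomial.mapRingHom f x) at h
  rw [← h]
  ext k
  simp only [lmap, AddMonoidAlgebra.coeff_mapRingHom, invert_apply]

end Groups

end

end Vale.Agent.P286.Sp
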