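import Vale.Agent.P286.Sp.Eps
import Vale.Agent.P286.H527.Test

/-!
# Split test objects over the points of the locus `θ = 0`
-/

namespace Vale.Agent.P286.Sp

open CategoryTheory LaurentPolynomial

noncomputable section

variable {N d : ℕ}

theorem theta_bc {A B : Type} [CommRing A] [CommRing B] (f : A →+* B)
    {g : GS N A[T;T⁻¹]} {S : (Module.End A (Jx N →₀ A))ˣ}
    (h : IsFraming g S) : theta (gsm N (lmap f) g) (bcU N f S) = f (theta g S) := by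
  have h1 := fdet_bc f (theta_finRank h)
  rw [bc_mul, bc_toep] at h1
  exact h1

theorem split_localize {D : Type} [CommRing D] (h₂ h₁ : D) (g : GS N D[T;T⁻¹]) (lam : Fin N → ℤ)
    (X Y : Matrix (Fin N) (Fin N) (Localization.Away h₂)[T;T⁻¹])
    (hX : MGE 0 X) (hX1 : X.det = 1) (hY : MLE 0 Y) (hY1 : Y.det = 1)
    (hg : mp (algebraMap D (Localization.Away h₂)) g.m * Y = X * mono lam)
    (B : Type) [CommRing B] [Algebra D B] [IsLocalization.Away (h₂ * h₁) B] :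
    ∃ X Y : Matrix (Fin N) (Fin N) B[T;T⁻¹], MGE 0 X ∧ X.det = 1 ∧ MLE 0 Y ∧ Y.det = 1 ∧
      mp (algebraMap D B) g.m * Y = X * mono lam := by
  have hu : IsUnit (algebraMap D B h₂) := by
    have h1 : IsUnit (algebraMap D B (h₂ * h₁)) :=
      IsLocalization.Away.algebraMap_isUnit (h₂ * h₁)
    rw [map_mul] at h1
    exact isUnit_of_mul_isUnit_left h1
  have hκ : (IsLocalization.Away.lift h₂ hu : Localization.Away h₂ →+* B).comp
      (algebraMap D (Localization.Away h₂)) = algebraMap D B :=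
    IsLocalization.Away.lift_comp h₂ hu
  have hg' := congrArg (mp (IsLocalization.Away.lift h₂ hu : Localization.Away h₂ →+* B)) hg
  rw [mp_mul, mp_mul, mp_mono, mp_mp, hκ] at hg'
  exact ⟨_, _, MGE.mp' _ hX, det_mp_one _ hX1, MLE.mp' _ hY, det_mp_one _ hY1, hg'⟩

theorem exists_test_aux (X : BunObj N d) (p : Ideal X.A.R) (B : Type) [CommRing B] [Algebra ℂ B]
    [Algebra.Smooth ℂ B] [Algebra (X.A.R ⧸ p) B] (f : X.A.R →ₐ[ℂ] B)
    (hf : ∀ a, f a = algebraMap (X.A.R ⧸ p) B (Ideal.Quotient.mk p a))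
    (hN : Even N) (k : ℕ) (hku : (X.g.u : (X.A.R)[T;T⁻¹]) = T (k : ℤ))
    (h : X.A.R) [IsLocalization.Away (Ideal.Quotient.mk p h) B] (lam : Fin N → ℤ)
    (U V : Matrix (Fin N) (Fin N) B[T;T⁻¹])
    (hU : MGE 0 U) (hU1 : U.det = 1) (hV : MLE 0 V) (hV1 : V.det = 1)
    (hg : mp (algebraMap (X.A.R ⧸ p) B) (gsm N (lmap (Ideal.Quotient.mk p)) X.g).m * V =
      U * mono lam) :
    ∃ (Y : BunObj N d) (ρ : X ⟶ Y) (U V : Matrix (Fin N) (Fin N) (Y.A.R)[T;T⁻¹]),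
      (Y.g.u : (Y.A.R)[T;T⁻¹]) = T (k : ℤ) ∧ SplitData Y.g k lam U V ∧
      (letI : Module X.A.R Y.A.R := Module.compHom Y.A.R ((Bun N d).res ρ).toRingHom
       ∃ u : (X.A.R ⧸ p) →ₗ[X.A.R] Y.A.R, IsLocalizedModule (Submonoid.powers h) u) := by
  have hf' : (algebraMap (X.A.R ⧸ p) B).comp (Ideal.Quotient.mk p) = (f : X.A.R →+* B) :=
    RingHom.ext fun a => (hf a).symm
  have hg2 : (gsm N (lmap (f : X.A.R →+* B)) X.g).m * V = U * mono lam := by
    rw [← hg, ← hf']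
    congr 1
    exact (mp_mp (Ideal.Quotient.mk p) (algebraMap (X.A.R ⧸ p) B) X.g.m).symm
  have hh : algebraMap ℂ B (1 / 2) + algebraMap ℂ B (1 / 2) = 1 := by
    rw [← map_add, ← map_one (algebraMap ℂ B)]
    congr 1
    norm_num
  obtain ⟨U', V', h1, h2, h3, h4, h5, h6⟩ := gram_schmidt hN (algebraMap ℂ B (1 / 2)) hh (k : ℤ) lam U V
    (gsm N (lmap (f : X.A.R →+* B)) X.g) (gsm_u _ hku) hU hU1 hV hV1 hg2
  refine ⟨X.pull ⟨B⟩ f, X.pullHom ⟨B⟩ f, U', V', gsm_u _ hku, ⟨h1, h2, h3, h4, h5, h6⟩, ?_⟩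
  let : Module X.A.R B := Module.compHom B f.toRingHom
  have hB : ∀ (a : X.A.R) (x : B), a • x =
      algebraMap (X.A.R ⧸ p) B (Ideal.Quotient.mk p a) * x := fun a x => by
    rw [← hf]
    rfl
  have hD : ∀ (a : X.A.R) (x : X.A.R ⧸ p), a • x = Ideal.Quotient.mk p a * x :=
    fun a x => Algebra.smul_def a x
  let u : (X.A.R ⧸ p) →ₗ[X.A.R] B :=
    { toFun := algebraMap (X.A.R ⧸ p) B
      map_add' := map_add _
      map_smul' := fun a x => by
        rw [hD, map_mul, RingHom.id_apply]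
        exact (hB a _).symm }
  exact ⟨u, isLocalizedModule_of_isLocalization (Ideal.Quotient.mk p) h hD hB u fun _ => rfl⟩

theorem exists_test (hd2 : d ≤ 2) (hN0 : 0 < N) (hN : Even N) (X : BunObj N d) (p : Ideal X.A.R) [hp : p.IsPrime] (hθ : X.th ∈ p) :
    ∃ h : X.A.R, h ∉ p ∧ ∃ (k : ℕ) (lam : Fin N → ℤ), (∃ i, 2 * lam i - (k : ℤ) ≠ 0) ∧
      2 * ∑ i, lam i = N * (k : ℤ) ∧
      ∃ (Y : BunObj N d) (ρ : X ⟶ Y) (U V : Matrix (Fin N) (Fin N) (Y.A.R)[T;T⁻¹]),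
      (Y.g.u : (Y.A.R)[T;T⁻¹]) = T (k : ℤ) ∧ SplitData Y.g k lam U V ∧
      (letI : Module X.A.R Y.A.R := Module.compHom Y.A.R ((Bun N d).res ρ).toRingHom
       ∃ u : (X.A.R ⧸ p) →ₗ[X.A.R] Y.A.R, IsLocalizedModule (Submonoid.powers h) u) := by
  have hfr : IsFraming (gsm N (lmap (Ideal.Quotient.mk p)) X.g)
      (bcU N (Ideal.Quotient.mk p) X.S) := X.framing.bc _
  have hθD : theta (gsm N (lmap (Ideal.Quotient.mk p)) X.g)
      (bcU N (Ideal.Quotient.mk p) X.S) = 0 := by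
    rw [theta_bc _ X.framing]
    exact Ideal.Quotient.eq_zero_iff_mem.2 hθ
  obtain ⟨k, hk, hku⟩ := X.mult
  obtain ⟨h₂, hh₂, lam, hlam, hsum, U, V, hU, hU1, hV, hV1, hg⟩ := generic_split hN0 hN
    (gsm N (lmap (Ideal.Quotient.mk p)) X.g) k (lt_of_lt_of_le hk hd2) (gsm_u _ hku) _ hfr hθD
  have : Algebra.FiniteType ℂ X.A.R := inferInstance
  have : Algebra.FiniteType ℂ (X.A.R ⧸ p) :=
    Algebra.FiniteType.of_surjective (Ideal.Quotient.mkₐ ℂ p) (Ideal.Quotient.mkₐ_surjective ℂ p)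
  obtain ⟨h₁, hne, hsm⟩ := exists_smooth_loc h₂ hh₂
  obtain ⟨U', V', hU', hU1', hV', hV1', hg'⟩ := split_localize h₂ h₁ _ lam U V hU hU1 hV hV1 hg
    (Localization.Away (h₂ * h₁))
  obtain ⟨h, hh⟩ := Ideal.Quotient.mk_surjective (h₂ * h₁)
  refine ⟨h, ?_, k, lam, hlam, hsum, ?_⟩
  · intro hhp
    apply hne
    rw [← hh]
    exact Ideal.Quotient.eq_zero_iff_mem.2 hhp
  · have : IsLocalization.Away (Ideal.Quotient.mk p h) (Localization.Away (h₂ * h₁)) := by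
      rw [hh]
      infer_instance
    exact exists_test_aux X p (Localization.Away (h₂ * h₁))
      ((IsScalarTower.toAlgHom ℂ (X.A.R ⧸ p) (Localization.Away (h₂ * h₁))).comp
        (Ideal.Quotient.mkₐ ℂ p)) (fun _ => rfl) hN k hku h lam U' V' hU' hU1' hV' hV1' hg'

end

end Vale.Agent.P286.Sp
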