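import Vale.Agent.P286.Sp.Defs
import Vale.Agent.P286.H527.Theta

/-!
# The theta function and the open locus of trivial bundles
-/

namespace Vale.Agent.P286.Sp

open CategoryTheory LaurentPolynomial

noncomputable section

variable {N d : ℕ}

theorem toepPos_val {A : Type} [CommRing A] (a : SP N (Polynomial A)) :
    (toepPos N A a : Module.End A (Jx N →₀ A)) = toep (pos N A a) := rfl

theorem toepNeg_val {A : Type} [CommRing A] (a : SP N (Polynomial A)) :
    (toepNeg N A a : Module.End A (Jx N →₀ A)) = toep (neg N A a) := rfl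

/-- `θ(g, S) = fdet (toep g * S⁻¹)` -/
def theta {A : Type} [CommRing A] (g : GS N A[T;T⁻¹]) (S : (Module.End A (Jx N →₀ A))ˣ) : A :=
  fdet (toep g * ((S⁻¹ : (Module.End A (Jx N →₀ A))ˣ) : Module.End A (Jx N →₀ A)))

theorem theta_finRank {A : Type} [CommRing A] {g : GS N A[T;T⁻¹]}
    {S : (Module.End A (Jx N →₀ A))ˣ} (h : IsFraming g S) :
    FinRank (toep g * ((S⁻¹ : (Module.End A (Jx N →₀ A))ˣ) : Module.End A (Jx N →₀ A)) - 1) := by
  have e : toep g * ((S⁻¹ : (Module.End A (Jx N →₀ A))ˣ) : Module.End A (Jx N →₀ A)) - 1 =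
      (-((S : Module.End A (Jx N →₀ A)) - toep g)) *
        ((S⁻¹ : (Module.End A (Jx N →₀ A))ˣ) : Module.End A (Jx N →₀ A)) := by
    have := Units.mul_inv S
    exact ring_aux₄ (toep g) (S : Module.End A (Jx N →₀ A)) _ this
  rw [e]
  exact h.neg.mul_right _

theorem theta_transport {A B : Type} [CommRing A] [CommRing B] (f : A →+* B)
    {a b : SP N (Polynomial B)} {g : GS N A[T;T⁻¹]} {g' : GS N B[T;T⁻¹]}
    (e : g' * neg N B b = pos N B a * gsm N (lmap f) g)
    {S : (Module.End A (Jx N →₀ A))ˣ} {S' : (Module.End B (Jx N →₀ B))ˣ}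
    (h : IsFraming g S) (h' : IsFraming g' S') :
    theta g' S' = fdet ((transport f a b S * S'⁻¹ : (Module.End B (Jx N →₀ B))ˣ) :
      Module.End B (Jx N →₀ B)) * f (theta g S) := by
  have e1 : g' = pos N B a * (gsm N (lmap f) g * neg N B b⁻¹) := by
    rw [← mul_assoc, ← e, mul_assoc, ← map_mul, mul_inv_cancel, map_one, mul_one]
  have e2 : toep g' * ((S'⁻¹ : (Module.End B (Jx N →₀ B))ˣ) : Module.End B (Jx N →₀ B)) =
      ((toepPos N B a : Module.End B (Jx N →₀ B)) *
        bc f (toep g * ((S⁻¹ : (Module.End A (Jx N →₀ A))ˣ) : Module.End A (Jx N →₀ A))) *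
        (((toepPos N B a)⁻¹ : (Module.End B (Jx N →₀ B))ˣ) : Module.End B (Jx N →₀ B))) *
      ((transport f a b S * S'⁻¹ : (Module.End B (Jx N →₀ B))ˣ) : Module.End B (Jx N →₀ B)) := by
    rw [e1, toep_pos_mul, toep_mul_neg, ← bc_toep, bc_mul]
    have h1 : bc f ((S⁻¹ : (Module.End A (Jx N →₀ A))ˣ) : Module.End A (Jx N →₀ A)) *
        bc f (S : Module.End A (Jx N →₀ A)) = 1 := by
      rw [← bc_mul, Units.inv_mul, bc_one]
    have h3 : ((transport f a b S * S'⁻¹ : (Module.End B (Jx N →₀ B))ˣ) :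
        Module.End B (Jx N →₀ B)) = toep (pos N B a) * bc f (S : Module.End A (Jx N →₀ A)) *
          toep (neg N B b⁻¹) * ((S'⁻¹ : (Module.End B (Jx N →₀ B))ˣ) :
            Module.End B (Jx N →₀ B)) := by
      rw [transport, ← map_inv]
      rfl
    rw [h3]
    exact ring_aux₅ (toep (pos N B a)) _ (toep (neg N B b⁻¹)) (bc f (toep g))
      (bc f (S : Module.End A (Jx N →₀ A))) _ _ (Units.inv_mul (toepPos N B a)) h1
  have hb := FinRank.bc_sub_one f (theta_finRank h)
  have hc : FinRank (((toepPos N B a : Module.End B (Jx N →₀ B)) *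
        bc f (toep g * ((S⁻¹ : (Module.End A (Jx N →₀ A))ˣ) : Module.End A (Jx N →₀ A))) *
        (((toepPos N B a)⁻¹ : (Module.End B (Jx N →₀ B))ˣ) : Module.End B (Jx N →₀ B))) - 1) := by
    rw [ring_aux₃ (toepPos N B a : Module.End B (Jx N →₀ B))
        (((toepPos N B a)⁻¹ : (Module.End B (Jx N →₀ B))ˣ) : Module.End B (Jx N →₀ B))
        (bc f (toep g * ((S⁻¹ : (Module.End A (Jx N →₀ A))ˣ) : Module.End A (Jx N →₀ A))))
        (Units.mul_inv (toepPos N B a))]
    exact (hb.mul_left _).mul_right _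
  unfold theta
  rw [e2, fdet_mul hc ((h.transport f e).div h'), fdet_conj _ hb, fdet_bc f (theta_finRank h),
    mul_comm]

namespace BunObj

/-- the theta function of a test object -/
def th (X : BunObj N d) : X.A.R := theta X.g X.S

theorem th_map {X Y : BunObj N d} (φ : BunHom X Y) :
    Y.th = (φ.dl : Y.A.R) * φ.f X.th :=
  theta_transport (φ.f : X.A.R →+* Y.A.R) φ.eq X.framing Y.framing

end BunObj

end

end Vale.Agent.P286.Sp
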